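import Vale.Agent.Lib.P123.Crz.Equilib

/-!
# Module CHAIN: the final inequality, in `L²(m)` only

Inputs: `a ∈ H₋`, `u = 1 + a`, `v` with `Bb E v c`, `v'` with `Bb E v' c'`, where `c c'` is real nonnegative (`c' = conj c`), the pointwise bound
`|v + conj v'| ≤ 2 Re u`, `g` continuous periodic with `|g| ≤ M`, and the scalar `K ≥ 0` with `F (b g v) = K F (b u)`, where `b = (conj u + N conj u)/2`.
Conclusion `K ≤ 2 M`.

Paper proof.  `ε = N (cj a) ∈ H₋`, `l = cj a`, `b = 1 + (l + ε)/2`, because `N 1 = 1` (`k_mass`).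
`F (b u) = F u + F (l u)/2 + F (ε u)/2`; `F u = 1`, `F (l u) = F l + F (l a) = 0 + Q a`, `F (ε u) = F ε + F (ε a) = 0` (`F_Hm`, `Hm.mul`). So `F (b u) = 1 + Q a / 2 =: B`.
`Q b = 1 + Re F (l+ε) + Q (l+ε)/4 = 1 + (Q l + Q ε + 2 Re F (l conj ε))/4`, `F (l conj ε) = conj F (a ε) = 0`, `Q ε ≤ Q l = Q a`. So `Q b ≤ B`.
`Q (v + conj v') = Q v + Q v' + 2 Re F (v v') = Q v + Q v' + 2 Re (c c') ≥ Q v`.
`ω = 2 Re u = u + conj u`: `Q ω = F(ω²) = 2 Q u + 2 Re F (u²) = 2 (1 + Q a) + 2 = 4 B`.  Pointwise bound: `Q v ≤ Q (v + conj v') ≤ Q ω = 4 B`.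
`K B = |F (b g v)| ≤ M sqrt (Q b) sqrt (Q v) ≤ M sqrt B · 2 sqrt B = 2 M B`, and `B ≥ 1`.
-/

open Complex ComplexConjugate MeasureTheory Set Filter Topology Polynomial
open scoped Interval Real

noncomputable section

namespace Vale.Agent.Lib.P123.Crz

variable {C : Crv} {E : Equil C}

theorem chain {a v v' g : ℝ → ℂ} {c c' : ℂ} {M K : ℝ} (ha : Hm E a) (hv : Bb E v c) (hv' : Bb E v' c')
    (hcc : 0 ≤ (c * c').re) (hpt : ∀ t, ‖v t + conj (v' t)‖ ≤ 2 * (1 + a t).re) (hg : Per g)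
    (hgM : ∀ t, ‖g t‖ ≤ M)
    (hK : E.F (fun t => (1 + cj a t + C.N (fun s => 1 + cj a s) t) / 2 * g t * v t)
      = (K : ℂ) * E.F (fun t => (1 + cj a t + C.N (fun s => 1 + cj a s) t) / 2 * (1 + a t)))
    (hK0 : 0 ≤ K) : K ≤ 2 * M := by
  sorry

end Vale.Agent.Lib.P123.Crz
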