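import Vale.Agent.Lib.P123.Crz.Defs

/-!
# Module CURVE: elementary facts on a curve given by its support function

Paper proofs.
`σ' = i e^{it} (h + h'')`: product rule, `d/dt (h + i h') = h' + i h''`, `d/dt e^{it} = i e^{it}`.
Put `y(t) = sd (σ s) t = h t - (h s cos(t-s) + h' s sin(t-s))`; then `y(s) = y'(s) = 0` and
`y'' + y = κ`, so `y(t) = ∫_s^t sin(t-v) κ(v) dv` (verify by differentiating the right side twice,
or: the function `∫_s^t sin(t-v) κ(v) dv` and `y` solve the same initial value problem; a direct route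
is integrating by parts twice).  For `|t-s| ≤ π`, `sin(t-v)` has the sign of `t-s` on the segment,
so `κ₀ (1 - cos(t-s)) ≤ y(t) ≤ κ₁ (1 - cos(t-s))`.
Chord: `σ t - σ s = ∫_s^t i e^{iv} κ(v) dv`; multiply by `e^{-i m}`, `m = (s+t)/2`; the imaginary part is
`∫_s^t cos(v-m) κ(v) dv`, which for `|t-s| ≤ π` has modulus at least `κ₀ · 2 |sin((t-s)/2)|`.
-/

open Complex ComplexConjugate MeasureTheory Set Filter Topology Polynomial
open scoped Interval Real

noncomputable section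

namespace Vale.Agent.Lib.P123.Crz

namespace Crv

variable (C : Crv)

theorem hasDerivAt_h (t : ℝ) : HasDerivAt C.h (C.h' t) t := by sorry
theorem hasDerivAt_h' (t : ℝ) : HasDerivAt C.h' (C.h'' t) t := by sorry
theorem hasDerivAt_σ (t : ℝ) : HasDerivAt C.σ (C.dσ t) t := by sorry

theorem per_h' (t : ℝ) : C.h' (t + 2 * π) = C.h' t := by sorry
theorem per_h'' (t : ℝ) : C.h'' (t + 2 * π) = C.h'' t := by sorry
theorem per_κ (t : ℝ) : C.κ (t + 2 * π) = C.κ t := by sorry
theorem per_e (t : ℝ) : e (t + 2 * π) = e t := by sorry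
theorem per_σ (t : ℝ) : C.σ (t + 2 * π) = C.σ t := by sorry
theorem per_dσ (t : ℝ) : C.dσ (t + 2 * π) = C.dσ t := by sorry
/-- periodicity with integer shifts -/
theorem per_σ_int (t : ℝ) (n : ℤ) : C.σ (t + n * (2 * π)) = C.σ t := by sorry
theorem per_dσ_int (t : ℝ) (n : ℤ) : C.dσ (t + n * (2 * π)) = C.dσ t := by sorry

theorem continuous_h : Continuous C.h := by sorry
theorem continuous_h' : Continuous C.h' := by sorry
theorem continuous_h'' : Continuous C.h'' := by sorry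
theorem continuous_κ : Continuous C.κ := by sorry
theorem continuous_σ : Continuous C.σ := by sorry
theorem continuous_dσ : Continuous C.dσ := by sorry

theorem κ_lower (t : ℝ) : C.κ₀ ≤ C.κ t := by sorry
/-- the upper bound of the radius of curvature -/
theorem exists_κ_upper : ∃ κ₁ : ℝ, 0 < κ₁ ∧ ∀ t, C.κ t ≤ κ₁ := by sorry
theorem lipschitz_κ : ∃ L : NNReal, LipschitzWith L C.κ := by sorry
theorem lipschitz_h'' : ∃ L : NNReal, LipschitzWith L C.h'' := by sorry
theorem lipschitz_σ : ∃ L : NNReal, LipschitzWith L C.σ := by sorry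
theorem lipschitz_dσ : ∃ L : NNReal, LipschitzWith L C.dσ := by sorry

theorem norm_dσ (t : ℝ) : ‖C.dσ t‖ = C.κ t := by sorry
theorem dσ_ne (t : ℝ) : C.dσ t ≠ 0 := by sorry
/-- the support function in terms of the curve -/
theorem sd_σ_self (t : ℝ) : C.sd (C.σ t) t = 0 := by sorry
theorem sd_eq (s t : ℝ) :
    C.sd (C.σ s) t = C.h t - (C.h s * Real.cos (t - s) + C.h' s * Real.sin (t - s)) := by sorry
/-- The Green formula for `y'' + y = κ`. -/
theorem sd_formula (s t : ℝ) :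
    C.sd (C.σ s) t = ∫ v in s..t, Real.sin (t - v) * C.κ v := by sorry
theorem sd_lower {s t : ℝ} (h : |t - s| ≤ π) : C.κ₀ * (1 - Real.cos (t - s)) ≤ C.sd (C.σ s) t := by sorry
theorem sd_upper {κ₁ : ℝ} (hκ : ∀ t, C.κ t ≤ κ₁) {s t : ℝ} (h : |t - s| ≤ π) :
    C.sd (C.σ s) t ≤ κ₁ * (1 - Real.cos (t - s)) := by sorry
theorem sd_nonneg (s t : ℝ) : 0 ≤ C.sd (C.σ s) t := by sorry
theorem sd_pos {s t : ℝ} (h : ¬ ∃ n : ℤ, t = s + n * (2 * π)) : 0 < C.sd (C.σ s) t := by sorry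
/-- `sd` is affine in the point -/
theorem sd_combo (a b : ℝ) (hab : a + b = 1) (z w : ℂ) (t : ℝ) :
    C.sd ((a : ℂ) * z + (b : ℂ) * w) t = a * C.sd z t + b * C.sd w t := by sorry

theorem chord_lower {s t : ℝ} (h : |t - s| ≤ π) :
    2 * C.κ₀ * |Real.sin ((t - s) / 2)| ≤ ‖C.σ t - C.σ s‖ := by sorry
theorem chord_lower' {s t : ℝ} (h : |t - s| ≤ π) :
    (2 / π) * C.κ₀ * |t - s| ≤ ‖C.σ t - C.σ s‖ := by sorry
theorem chord_upper {κ₁ : ℝ} (hκ : ∀ t, C.κ t ≤ κ₁) (s t : ℝ) : ‖C.σ t - C.σ s‖ ≤ κ₁ * |t - s| := by sorry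
theorem chord_ne {s t : ℝ} (h : ¬ ∃ n : ℤ, t = s + n * (2 * π)) : C.σ t - C.σ s ≠ 0 := by sorry

/-- The kernel in terms of the support defect. -/
theorem im_formula {s t : ℝ} (h : ¬ ∃ n : ℤ, t = s + n * (2 * π)) :
    (C.dσ t / (C.σ t - C.σ s)).im = C.κ t * C.sd (C.σ s) t / ‖C.σ t - C.σ s‖ ^ 2 := by sorry

/-- The same computation for a point `z` off the curve. -/
theorem im_formula' {z : ℂ} {t : ℝ} (h : C.σ t - z ≠ 0) :
    (C.dσ t / (C.σ t - z)).im = C.κ t * C.sd z t / ‖C.σ t - z‖ ^ 2 := by sorry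

/-- `σ t - z` is `e^{it}` times a function with real part `sd z t`. -/
theorem re_mul_e (z : ℂ) (t : ℝ) : ((C.σ t - z) * exp (-((t : ℂ) * I))).re = C.sd z t := by sorry

/-- distance to the curve is at least the support defect -/
theorem sd_le_norm (z : ℂ) (t : ℝ) : C.sd z t ≤ ‖C.σ t - z‖ := by sorry

end Crv

end Vale.Agent.Lib.P123.Crz
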