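import Mathlib

/-!
# Crouzeix C=2 (helper89 proof, Neumann route): basic definitions

See notes/P123_blueprint.md.  A smooth strictly convex closed curve is given by its support
function `h`, with parameter = normal angle:
`σ t = e^{it} (h t + i h' t)`, `σ' t = i e^{it} κ t`, `κ = h + h'' > 0`.
-/

open Complex ComplexConjugate MeasureTheory Set Filter Topology Polynomial
open scoped Interval Real

noncomputable section

namespace Vale.Agent.Lib.P123.Crz

/-- A smooth strictly convex closed curve, given by its support function. -/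
structure Crv where
  h : ℝ → ℝ
  smooth : ContDiff ℝ 3 h
  per : ∀ t, h (t + 2 * π) = h t
  κ₀ : ℝ
  κ₀_pos : 0 < κ₀
  conv : ∀ t, κ₀ ≤ h t + deriv (deriv h) t

namespace Crv

variable (C : Crv)

/-- first derivative of the support function -/
def h' (t : ℝ) : ℝ := deriv C.h t
/-- second derivative of the support function -/
def h'' (t : ℝ) : ℝ := deriv (deriv C.h) t
/-- radius of curvature -/
def κ (t : ℝ) : ℝ := C.h t + C.h'' t
/-- unit normal -/
def e (t : ℝ) : ℂ := exp ((t : ℂ) * I)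
/-- the curve -/
def σ (t : ℝ) : ℂ := e t * ((C.h t : ℂ) + (C.h' t : ℂ) * I)
/-- the velocity of the curve -/
def dσ (t : ℝ) : ℂ := I * e t * (C.κ t : ℂ)
/-- support defect of a point `z` at the normal angle `t`. -/
def sd (z : ℂ) (t : ℝ) : ℝ := C.h t - (z * exp (-((t : ℂ) * I))).re
/-- strict interior of the curve -/
def Inside (z : ℂ) : Prop := ∀ t, 0 < C.sd z t

/-- The Cauchy transform of a boundary function at a point off the curve. -/
def Cz (a : ℝ → ℂ) (z : ℂ) : ℂ :=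
  (2 * π * I)⁻¹ * ∫ t in (0 : ℝ)..(2 * π), a t * C.dσ t / (C.σ t - z)

/-- The exterior boundary value of the Cauchy transform (no principal value is needed for
Lipschitz `a`). -/
def Ce (a : ℝ → ℂ) (θ : ℝ) : ℂ :=
  (2 * π * I)⁻¹ * ∫ t in (0 : ℝ)..(2 * π), (a t - a θ) * C.dσ t / (C.σ t - C.σ θ)

/-- The Neumann kernel (double layer), extended by its limit `1/(2π)` on the diagonal. -/
def k (s t : ℝ) : ℝ :=
  open Classical in
  if ∃ n : ℤ, t = s + n * (2 * π) then 1 / (2 * π)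
  else (1 / π) * (C.dσ t / (C.σ t - C.σ s)).im

/-- The Neumann operator. -/
def N (a : ℝ → ℂ) (s : ℝ) : ℂ := ∫ t in (0 : ℝ)..(2 * π), (C.k s t : ℂ) * a t

end Crv

/-- Continuous `2π`-periodic functions. -/
def Per (a : ℝ → ℂ) : Prop := Continuous a ∧ ∀ t, a (t + 2 * π) = a t

/-- Lipschitz `2π`-periodic functions. -/
def LipPer (a : ℝ → ℂ) : Prop := (∃ L : NNReal, LipschitzWith L a) ∧ ∀ t, a (t + 2 * π) = a t

/-- The complex conjugate function. -/
def cj (a : ℝ → ℂ) : ℝ → ℂ := fun t => conj (a t)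

/-- The equilibrium density of a curve: the invariant density of the Neumann operator, together
with the Doeblin convergence. -/
structure Equil (C : Crv) where
  ρ : ℝ → ℝ
  lip : ∃ L : NNReal, LipschitzWith L ρ
  per : ∀ t, ρ (t + 2 * π) = ρ t
  ρ₀ : ℝ
  ρ₀_pos : 0 < ρ₀
  low : ∀ t, ρ₀ ≤ ρ t
  mass : ∫ t in (0 : ℝ)..(2 * π), ρ t = 1
  inv : ∀ a, Per a → ∫ t in (0 : ℝ)..(2 * π), C.N a t * (ρ t : ℂ) = ∫ t in (0 : ℝ)..(2 * π), a t * (ρ t : ℂ)
  doeblin : ∀ a, Per a → ∀ ε > 0, ∃ n₀ : ℕ, ∀ n ≥ n₀, ∀ s,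
    ‖(C.N)^[n] a s - ∫ t in (0 : ℝ)..(2 * π), a t * (ρ t : ℂ)‖ ≤ ε

namespace Equil

variable {C : Crv} (E : Equil C)

/-- integral against the equilibrium measure -/
def F (a : ℝ → ℂ) : ℂ := ∫ t in (0 : ℝ)..(2 * π), a t * (E.ρ t : ℂ)

/-- squared `L²(m)` norm -/
def Q (a : ℝ → ℂ) : ℝ := ∫ t in (0 : ℝ)..(2 * π), ‖a t‖ ^ 2 * E.ρ t

end Equil

/-- The algebra `E₀`: rational functions of `σ` with all poles strictly inside, vanishing at
infinity. -/
def Rat (C : Crv) (e : ℝ → ℂ) : Prop :=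
  ∃ q r : ℂ[X], r.Monic ∧ (∀ p, r.IsRoot p → C.Inside p) ∧ q.degree < r.degree ∧
    ∀ t, e t = q.eval (C.σ t) / r.eval (C.σ t)

/-- The space `H₋`: the closure of `E₀` in `L²(m)`, inside the continuous periodic functions. -/
def Hm {C : Crv} (E : Equil C) (a : ℝ → ℂ) : Prop :=
  Per a ∧ ∀ η > 0, ∃ e, Rat C e ∧ E.Q (fun t => a t - e t) < η

/-- The algebra `C + H₋`, with its constant term `c`. -/
def Bb {C : Crv} (E : Equil C) (a : ℝ → ℂ) (c : ℂ) : Prop :=
  Per a ∧ Hm E (fun t => a t - c)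

/-- The density with respect to the equilibrium measure of the complex measure
`(2π i)⁻¹ e dσ`. -/
def vv {C : Crv} (E : Equil C) (e : ℝ → ℂ) (t : ℝ) : ℂ :=
  C.dσ t * e t / (2 * π * I * (E.ρ t : ℂ))

end Vale.Agent.Lib.P123.Crz
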