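import Vale.Agent.Lib.P123.Crz.Kernel

/-!
# Module DOEBLIN: the invariant density of a positive Markov kernel

Abstract statement, no curves.  `k` continuous on `ℝ²`, `2π`-periodic in both variables, `k ≥ δ₀ > 0`,
`∫_0^{2π} k s t dt = 1`, and `k s` is `L`-Lipschitz uniformly in `s`.  `N a s = ∫ k s t a t dt`.

Paper proof.  Let `q = 1 - 2πδ₀ ∈ [0,1)`.  For real continuous periodic `a`, with `osc a = max a - min a`:
`N a s - N a s' = ∫ (k s t - δ₀) a t dt - ∫ (k s' t - δ₀) a t dt ≤ q max a - q min a`, as `k - δ₀ ≥ 0` has mass `q`.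
So `osc (N a) ≤ q osc a`, and `max N^n a` decreases, `min N^n a` increases, with common limit `Fa(a)`, and
`|N^n a s - Fa a| ≤ q^n osc a`.  `Fa` is linear, positive, `Fa 1 = 1`, `Fa (N a) = Fa a`, `|Fa a| ≤ ‖a‖_∞`.
Put `ρ t = Fa (k · t)`.  By continuity of `Fa` in the sup norm (a limit of Riemann sums, or use that `N^n`
are integral operators and pass to the limit with dominated convergence), `Fa (N a) = ∫ ρ t a t dt`; so
`Fa a = ∫ ρ a`, `δ₀ ≤ ρ`, `∫ρ = 1`, `ρ` `L`-Lipschitz (`|Fa b| ≤ ‖b‖_∞`).  `∫ (N a) ρ = ∫ a ρ` is `Fa (N a) = Fa a`.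
Complex `a`: apply this to the real and imaginary parts.
Alternative for the construction: densities `ρ₀ = 1/(2π)`, `ρ_{n+1} t = ∫ ρ_n s k s t ds` converge uniformly since
`‖T f‖_1 ≤ q ‖f‖_1` on mean zero functions and `‖T f‖_∞ ≤ (max k) ‖f‖_1`.
-/

open Complex ComplexConjugate MeasureTheory Set Filter Topology Polynomial
open scoped Interval Real

noncomputable section

namespace Vale.Agent.Lib.P123.Crz

/-- The integral operator of a kernel. -/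
def Nk (k : ℝ → ℝ → ℝ) (a : ℝ → ℂ) (s : ℝ) : ℂ := ∫ t in (0 : ℝ)..(2 * π), (k s t : ℂ) * a t

theorem doeblin_abstract (k : ℝ → ℝ → ℝ) (hc : Continuous (Function.uncurry k))
    (h1 : ∀ s t, k (s + 2 * π) t = k s t) (h2 : ∀ s t, k s (t + 2 * π) = k s t)
    (δ₀ : ℝ) (hδ₀ : 0 < δ₀) (hlow : ∀ s t, δ₀ ≤ k s t)
    (hmass : ∀ s, ∫ t in (0 : ℝ)..(2 * π), k s t = 1)
    (L : NNReal) (hL : ∀ s, LipschitzWith L (k s)) :
    ∃ ρ : ℝ → ℝ, LipschitzWith L ρ ∧ (∀ t, ρ (t + 2 * π) = ρ t) ∧ (∀ t, δ₀ ≤ ρ t) ∧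
      (∫ t in (0 : ℝ)..(2 * π), ρ t = 1) ∧
      (∀ a, Per a → ∫ t in (0 : ℝ)..(2 * π), Nk k a t * (ρ t : ℂ)
        = ∫ t in (0 : ℝ)..(2 * π), a t * (ρ t : ℂ)) ∧
      (∀ a, Per a → ∀ ε > 0, ∃ n₀ : ℕ, ∀ n ≥ n₀, ∀ s,
        ‖(Nk k)^[n] a s - ∫ t in (0 : ℝ)..(2 * π), a t * (ρ t : ℂ)‖ ≤ ε) := by
  sorry

/-- Every curve has an equilibrium density. -/
theorem exists_equil (C : Crv) : Nonempty (Equil C) := by
  obtain ⟨δ₀, hδ₀, hlow⟩ := C.k_lower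
  obtain ⟨L, hL⟩ := C.k_lipschitz
  obtain ⟨ρ, h1, h2, h3, h4, h5, h6⟩ := doeblin_abstract C.k C.k_continuous C.k_per_left C.k_per_right
    δ₀ hδ₀ hlow C.k_mass L hL
  exact ⟨⟨ρ, ⟨L, h1⟩, h2, δ₀, hδ₀, h3, h4, h5, h6⟩⟩

end Vale.Agent.Lib.P123.Crz
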