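import Vale.Agent.Lib.P123.Crz.HmCe

/-!
# Module CLOSURE: the space `H₋`, the equilibrium property and the function `w = 1/G`

`E : Equil C`.  `Q a = ∫ |a|² ρ`, `F a = ∫ a ρ`.  Everything on continuous periodic functions.

Paper proofs.
(Q-facts) `Q (a+b) ≤ 2 Q a + 2 Q b`, `Q (g a) ≤ B² Q a` for `|g| ≤ B`; Cauchy-Schwarz `|F (a b)|² ≤ Q a Q b`.
`Jensen`: `|N a|² ≤ N |a|²` pointwise (`k ≥ 0`, mass one), then `E.inv`: `Q (N a) ≤ Q a`.
`Hm_Ce`: for `a` Lipschitz periodic and `s > 1`, `Y_s θ = Cz a (ray c s θ)` equals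
`- (2π i s)⁻¹ ∫ a t σ' t / (σ θ - p t) dt` with `p t = pole` inside; by uniform continuity of the integrand on `[0,2π]²`, the
Riemann sums converge uniformly in `θ`, each one is `Rat` (`Rat.kernel`, `Rat.add`, `Rat.smul`), so `Hm E Y_s`. By
`ray_tendsto`, `ray_integral_bound` and dominated convergence `Q (Y_s - Ce a) → 0` as `s → 1+`.  So `Hm E (Ce a)`.
`Ce_rat`: `Rat e → Ce e = -e`, from `boundary_of_const` with `c₀ = 0` and `Rat.Cz_eq_zero`.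
`N_conj_rat`: `N (cj e) = Ce (cj e)`, from `N_sub` applied to `cj e` and `Ce_rat`. So it is in `Hm`.
`N_conj_Hm`: by `Q (N a) ≤ Q a` and closedness.
`Cz_Hm`: `a ↦ Cz a z` is `Q`-continuous (`ρ ≥ ρ₀ > 0`) and vanishes on `Rat`.
`F_rat` (THE EQUILIBRIUM PROPERTY): `a_n = N^[2n] e` is in `Hm` (`N_conj_Hm` twice, `N (conj a) = conj (N a)` as `k` is real), and
`a_n → F e` uniformly (`E.doeblin`).  `Cz a_n z₀ = 0` by `Cz_Hm`, and `Cz (const) z₀ = const` (`Cz_one`), so `F e = 0`.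
`Hm_mul`: `e ∈ Rat`, `b ∈ Hm`: `e b'` for `b'` near `b` is `Rat`, `Q (e b - e b') ≤ B² Q (b - b')`, so `e b ∈ Hm`. Then for `a ∈ Hm`, `b` bounded,
`Q (a b - e b) ≤ B² Q (a - e)`, so `a b ∈ Hm`.
`Bb_mul`: `(a-c)(b-d) + c (b-d) + d (a-c)`.  `Bb_F`: `F` vanishes on `Hm`.
`Bb_limit`: uniform limits stay in `Bb`.
`Gb t = 2π i ρ t / σ' t`.  `Cz Gb z = ∫ ρ t / (σ t - z) dt = F (1/(σ-z)) = 0` by `F_rat`, `Rat.kernel`. `Gb` is Lipschitz, so `boundary_of_const` gives `Gb = - Ce Gb`, `Hm E Gb`.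
`H t = (σ t - c) Gb t`:  `Rat.sigma_mul` + closure give `Bb E H c'`, `c' = F H`; `Cz H z₀ = ∫ ρ (σ-c)/(σ-z₀) = 1 + (z₀-c) F(1/(σ-z₀)) = 1`, while `Cz` of `Bb` element is its constant; so `c' = 1`.
`Re H = 2π ρ sd c / κ ≥ δ₁ > 0` as `(σ-c) i/(i e^{it} κ) = (σ-c) e^{-it}/κ`.  `|1 - r H| ≤ q < 1` for small `r > 0`, so `1/H = r Σ (1 - r H)^n` is a uniform limit of elements of `Bb`; `1/H` in `Bb` with constant `1` (`Bb_mul`).
`vv E e = e / Gb = ((σ-c) e) · (1/H)`; so for `e = q/r`, `Bb E (vv E e) (q.coeff (deg r - 1))`.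
`b_moment`: `a ∈ Hm`: `cj a + N (cj a)` is orthogonal to polynomials: for `a = e ∈ Rat` it equals `cj e + Ce (cj e)`, apply `inner_moment`; both sides are `Q`-continuous in `a`.
-/


open Complex ComplexConjugate MeasureTheory Set Filter Topology Polynomial
open scoped Interval Real

noncomputable section

namespace Vale.Agent.Lib.P123.Crz

variable {C : Crv} {E : Equil C}

/-- THE EQUILIBRIUM PROPERTY. -/
theorem F_rat {e : ℝ → ℂ} (he : Rat C e) : E.F e = 0 := by sorry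
theorem F_Hm {a : ℝ → ℂ} (ha : Hm E a) : E.F a = 0 := by sorry

theorem Bb.mul {a b : ℝ → ℂ} {c d : ℂ} (ha : Bb E a c) (hb : Bb E b d) :
    Bb E (fun t => a t * b t) (c * d) := by sorry
theorem Bb.F {a : ℝ → ℂ} {c : ℂ} (ha : Bb E a c) : E.F a = c := by sorry
theorem Bb.Cz {a : ℝ → ℂ} {c : ℂ} (ha : Bb E a c) {z : ℂ} (hz : C.Inside z) : C.Cz a z = c := by sorry
/-- Uniform limits. -/
theorem Bb_limit {a : ℝ → ℂ} (ha : Per a) {u : ℕ → ℝ → ℂ} {c : ℕ → ℂ} (hu : ∀ n, Bb E (u n) (c n))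
    (hlim : ∀ ε > 0, ∃ n₀, ∀ n ≥ n₀, ∀ t, ‖u n t - a t‖ ≤ ε) : Bb E a (E.F a) := by sorry

variable (E) in
/-- The boundary value of `G = ζ'/ζ`. -/
def Gb (t : ℝ) : ℂ := 2 * π * I * (E.ρ t : ℂ) / C.dσ t

theorem Gb_lipPer : LipPer (Gb E) := by sorry
theorem Gb_ne (t : ℝ) : Gb E t ≠ 0 := by sorry
theorem Gb_Hm : Hm E (Gb E) := by sorry
/-- `H = (σ - c) G` has constant term one. -/
theorem H_Bb {c : ℂ} (hc : C.Inside c) : Bb E (fun t => (C.σ t - c) * Gb E t) 1 := by sorry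
/-- `Re H > 0`. -/
theorem H_re {c : ℂ} (hc : C.Inside c) : ∃ δ₁ : ℝ, 0 < δ₁ ∧ ∀ t, δ₁ ≤ ((C.σ t - c) * Gb E t).re := by sorry
theorem H_inv {c : ℂ} (hc : C.Inside c) : Bb E (fun t => 1 / ((C.σ t - c) * Gb E t)) 1 := by sorry

/-- The densities of the resolvent entries are in `C + H₋`. -/
theorem vv_Bb (q r : ℂ[X]) (hr : r.Monic) (hroots : ∀ p, r.IsRoot p → C.Inside p)
    (hdeg : q.degree < r.degree) :
    Bb E (vv E (fun t => q.eval (C.σ t) / r.eval (C.σ t))) (q.coeff (r.natDegree - 1)) := by sorry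

/-- The function `b` of the main proof is orthogonal to all polynomials. -/
theorem b_moment {a : ℝ → ℂ} (ha : Hm E a) (q : ℂ[X]) :
    ∫ t in (0 : ℝ)..(2 * π), (cj a t + C.N (cj a) t) * q.eval (C.σ t) * C.dσ t = 0 := by sorry

end Vale.Agent.Lib.P123.Crz
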