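import Vale.Agent.Lib.P123.Crz.Defs
import Vale.Agent.Lib.P123.Pg21

/-!
# Module GEOM: smooth curves around the numerical range

`H(t) = supp A t` is the support function of the numerical range (Lib/P123/Pg21): `Wset`, `supp`, `supp_conv`, `le_supp`, `toeplitz_hausdorff`, `supp_add_two_pi`.
Note `(w * exp(-(t I))).re = w.re cos t + w.im sin t`.

Paper proof.  `H` is `‖A‖`-Lipschitz and `2π`-periodic.  Let `φ` be a normed `ContDiffBump` of radius `r` on `ℝ`, `g = φ ⋆ H` (convolution; Mathlib: `HasCompactSupport.contDiff_convolution_left`, `ContDiffBump.dist_normed_convolution_le`).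
`g` is smooth, periodic, `|g - H| ≤ ‖A‖ r`.
For `0 < |s| < π/2`: `H(t+s) + H(t-s) - 2 cos s · H(t) ≥ 0` (`supp_conv`), so the same for `g` (`φ ≥ 0`).  Dividing by `s²`, `s → 0` (Taylor): `g'' + g ≥ 0`.
Put `h = g + 2 ‖A‖ r + ε`; `κ₀ = ε`-ish: `h + h'' ≥ 2‖A‖ r + ε ≥ ε`.  So `h` defines a `Crv` with `κ₀ = ε`.
Inside: for `w ∈ Wset A`: `Re (w e^{-it}) ≤ H(t) ≤ g(t) + ‖A‖ r < h(t)`.
Close: `z = σ t`.  For all `s`: `Re (z e^{-is}) ≤ h(s)` (`sd_nonneg`, needs only `Curve.lean`) `≤ H(s) + 3 ‖A‖ r + ε`.  `K = closure (Wset A)` compact convex (`toeplitz_hausdorff`), `p₀` nearest point (as in `mkP_close`, Pg21), `d = ‖z - p₀‖`;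
with `e^{is} = (z-p₀)/d`: `H(s) = Re (p₀ e^{-is})`, `Re (z e^{-is}) = H(s) + d`.  So `d ≤ 3 ‖A‖ r + ε`.  Take `r`, `ε` small.
-/

open Complex ComplexConjugate MeasureTheory Set Filter Topology Polynomial
open scoped Interval Real InnerProductSpace

noncomputable section

namespace Vale.Agent.Lib.P123.Crz

variable {H : Type*} [NormedAddCommGroup H] [InnerProductSpace ℂ H]

theorem exists_curve (A : H →L[ℂ] H) {x₀ : H} (hx₀ : ‖x₀‖ = 1) {η : ℝ} (hη : 0 < η) :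
    ∃ C : Crv, (∀ x : H, ‖x‖ = 1 → C.Inside ⟪x, A x⟫_ℂ) ∧
      ∀ t, ∃ w ∈ closure (Vale.Agent.Lib.P123.Wset A), ‖C.σ t - w‖ ≤ η := by
  sorry

end Vale.Agent.Lib.P123.Crz
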