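import Vale.Agent.Lib.P123.Crz.Main
import Vale.Agent.Lib.P123.Crz.Geom

/-!
# Module FINAL: Crouzeix's conjecture

Paper proof.
Finite dimensions: `exists_curve` with `η` small, `curve_main`, and uniform continuity of `p` on a large ball, exactly as in `poly_bound` (Lib/P123/Pg21): `‖p(σ t)‖ ≤ M + ε`.  `ε → 0`.
General `H`: fix `x₀`.  `E = span {A^k x₀ : k ≤ deg p}`, finite dimensional, `B = π_E ∘ A ∘ ι` on `E`.  `⟪v, B v⟫ = ⟪v, A v⟫` for `v ∈ E`, so the hypothesis holds for `B`; `B^k x₀ = A^k x₀` for `k ≤ deg p`, so `p(B) x₀ = p(A) x₀`.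
So `‖p(A) x₀‖ = ‖p(B) x₀‖ ≤ 2 M ‖x₀‖`.
-/

open Complex ComplexConjugate MeasureTheory Set Filter Topology Polynomial
open scoped Interval Real InnerProductSpace

noncomputable section

namespace Vale.Agent.Lib.P123.Crz

theorem crouzeix_finite {V : Type*} [NormedAddCommGroup V] [InnerProductSpace ℂ V] [FiniteDimensional ℂ V]
    (A : V →L[ℂ] V) (p : ℂ[X]) (M : ℝ) (hM : 0 ≤ M)
    (hp : ∀ x : V, ‖x‖ = 1 → ‖p.eval ⟪x, A x⟫_ℂ‖ ≤ M) : ‖Polynomial.aeval A p‖ ≤ 2 * M := by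
  sorry

/-- **Crouzeix's conjecture.** -/
theorem crouzeix {H : Type*} [NormedAddCommGroup H] [InnerProductSpace ℂ H]
    (A : H →L[ℂ] H) (p : ℂ[X]) (M : ℝ) (hM : 0 ≤ M)
    (hp : ∀ x : H, ‖x‖ = 1 → ‖p.eval ⟪x, A x⟫_ℂ‖ ≤ M) : ‖Polynomial.aeval A p‖ ≤ 2 * M := by
  sorry

end Vale.Agent.Lib.P123.Crz
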