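import Vale.Agent.Lib.P123.Crz.Qfacts

/-!
# Module HMBASIC: the closure `H₋` of the rational functions in `L²(m)`

Paper proofs.  `Hm_of_rat`: `Rat.per`, `Q 0 = 0`.  `Hm.add`: `Q (x+y) ≤ 2 Q x + 2 Q y`, `Rat.add`.  `Hm.smul`: `Rat.smul`, `Q (c x) = |c|² Q x`.
`Hm_closed`: `Q (a-e) ≤ 2 Q (a-b) + 2 Q (b-e)`.
`Hm.mul`: `e ∈ Rat`, `b ∈ Hm`: for `e'` near `b`, `e e'` is `Rat` and `Q (e b - e e') ≤ B² Q (b - e')`, so `e b ∈ Hm`.  Then for `a ∈ Hm` and `b` continuous periodic (bounded),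
`Q (a b - e b) ≤ B² Q (a - e)`, so `a b ∈ Hm`.
`Cz_Hm`: `|Cz x z| ≤ M sqrt (Q x)` for continuous `x`, because `Cz x z = (2π i)⁻¹ ∫ x ρ · (σ'/(ρ (σ-z)))` with a bounded factor (`ρ ≥ ρ₀`), Cauchy-Schwarz, and `Cz` vanishes on `Rat` (`Rat.Cz_eq_zero`).
-/

open Complex ComplexConjugate MeasureTheory Set Filter Topology Polynomial
open scoped Interval Real

noncomputable section

namespace Vale.Agent.Lib.P123.Crz

variable {C : Crv} {E : Equil C}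

theorem Hm.per {a : ℝ → ℂ} (ha : Hm E a) : Per a := ha.1
theorem Hm_of_rat {e : ℝ → ℂ} (he : Rat C e) : Hm E e := by sorry
theorem Hm.add {a b : ℝ → ℂ} (ha : Hm E a) (hb : Hm E b) : Hm E (fun t => a t + b t) := by sorry
theorem Hm.smul {a : ℝ → ℂ} (c : ℂ) (ha : Hm E a) : Hm E (fun t => c * a t) := by sorry
theorem Hm_closed {a : ℝ → ℂ} (ha : Per a)
    (h : ∀ η > 0, ∃ b, Hm E b ∧ E.Q (fun t => a t - b t) < η) : Hm E a := by sorry

theorem Hm.mul {a b : ℝ → ℂ} (ha : Hm E a) (hb : Hm E b) : Hm E (fun t => a t * b t) := by sorry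
theorem Cz_Hm {a : ℝ → ℂ} (ha : Hm E a) {z : ℂ} (hz : C.Inside z) : C.Cz a z = 0 := by sorry

end Vale.Agent.Lib.P123.Crz
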