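import Vale.Agent.Lib.P123.Crz.Curve

/-!
# Module KERNEL: the Neumann kernel is continuous, positive, Lipschitz, of mass one

Paper proofs.
For `δ = t - s ≠ 0`, `|δ| ≤ π`: `a(s,δ) := (σ(s+δ) - σ s)/δ = ∫_0^1 σ'(s+vδ) dv` (Hadamard),
`b(s,δ) := sd (σ s) (s+δ) / δ² = ∫_0^1 (1-v) (h''(s+vδ) + Re(σ s · e^{-i(s+vδ)})) dv` (Taylor with integral
remainder: `y(δ) = sd (σ s)(s+δ)` has `y(0)=y'(0)=0`, `y'' = h''(s+δ) + Re(σ s e^{-i(s+δ)})`).
Both are jointly Lipschitz on `|δ| ≤ π` (the integrands are, `h''` being Lipschitz), `|a| ≥ (2/π) κ₀`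
by `chord_lower'`.  Hence by `im_formula`:
`k s t = (1/π) κ(s+δ) b(s,δ) / |a(s,δ)|²` for `0 < |δ| ≤ π`, and the right side at `δ = 0` is
`(1/π) κ(s) (κ(s)/2) / κ(s)² = 1/(2π)`.  So `k` is jointly continuous near the diagonal (off it: trivially)
and Lipschitz in `t` uniformly in `s` on `|t-s| ≤ π`, hence by periodicity on all of `ℝ`.
Lower bound: for `|δ| ≤ π`, `k ≥ (1/π) κ₀ κ₀ (1 - cos δ) / (κ₁² δ²) ≥ (1/π) κ₀² (2/π²) / κ₁²`.
Mass: for `t` strictly between `θ` and `θ + 2π`, `y(t) = (σ t - σ θ) e^{-it}` has `Re y = sd (σ θ) t > 0`, so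
`log y` is differentiable and `σ'/(σ-σ θ) = i + y'/y`.  Hence
`∫_{θ+η}^{θ+2π-η} σ'/(σ-σ θ) = i (2π - 2η) + log y(θ-η) - log y(θ+η)`, by periodicity of `y`.
As `η → 0+`, `y(θ+η)/η → i κ(θ)` and `y(θ-η)/η → -i κ(θ)`, so `arg y(θ+η) → π/2`, `arg y(θ-η) → -π/2`,
the imaginary part tends to `2π - π = π`, and `k` is bounded, so `∫_0^{2π} k θ t dt = 1`
(use periodicity to move the window to `[θ, θ+2π]`).
-/

open Complex ComplexConjugate MeasureTheory Set Filter Topology Polynomial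
open scoped Interval Real

noncomputable section

namespace Vale.Agent.Lib.P123.Crz

namespace Crv

variable (C : Crv)

theorem k_off {s t : ℝ} (h : ¬ ∃ n : ℤ, t = s + n * (2 * π)) :
    C.k s t = (1 / π) * (C.dσ t / (C.σ t - C.σ s)).im := by
  simp [k, h]

theorem k_per_left (s t : ℝ) : C.k (s + 2 * π) t = C.k s t := by sorry
theorem k_per_right (s t : ℝ) : C.k s (t + 2 * π) = C.k s t := by sorry
theorem k_continuous : Continuous (Function.uncurry C.k) := by sorry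
theorem k_lower : ∃ δ₀ : ℝ, 0 < δ₀ ∧ ∀ s t, δ₀ ≤ C.k s t := by sorry
theorem k_mass (s : ℝ) : ∫ t in (0 : ℝ)..(2 * π), C.k s t = 1 := by sorry
theorem k_lipschitz : ∃ L : NNReal, ∀ s, LipschitzWith L (C.k s) := by sorry

end Crv

end Vale.Agent.Lib.P123.Crz
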