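import Vale.Agent.Lib.P123.Crz.Wind
import Vale.Agent.Lib.P123.Crz.Kernel

/-!
# Module LIMIT: boundary values of Cauchy transforms along rays

Fix `c` inside, `z s θ = c + s (σ θ - c)`, `s > 0`.
Paper proofs.
`sd (z s θ) t = s · sd (σ θ) t + (1-s) · sd c t` (`sd_combo`), so for `0 < s < 1` the point is inside, and
`‖σ t - z‖ ≥ sd (z s θ) t ≥ (1-s) d₀` where `d₀ = min_t sd c t > 0`.
For `s > 1`: `sd (z s θ) θ = (1-s) sd c θ < 0`, outside.  Also
`‖σ t - z‖ ≥ -sd (z s θ) θ + sd (σ t) θ ≥ (s-1) d₀` [real part of `(z - σ t) e^{-iθ}`].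
In both cases `‖σ t - z‖ ≥ ‖σ t - σ θ‖ - |s-1| D`, with `D = max ‖σ θ - c‖`.  Hence (`ray_bound`)
`‖σ t - z‖ ≥ c₁ ‖σ t - σ θ‖` with `c₁ = min(1/2, d₀/(2D))` (if `|s-1| D ≤ ‖chord‖/2` the second bound, otherwise the first).
For Lipschitz periodic `a`, `|a t - a θ| / ‖σ t - σ θ‖` is bounded for `t ≠ θ` (move `t` to `|t-θ| ≤ π` by
periodicity, `chord_lower'`), so the integrands `(a t - a θ) σ' t / (σ t - z s θ)` are bounded uniformly in `s`, and they
converge for `t ≠ θ` mod `2π` as `s → 1`: dominated convergence gives `ray_tendsto`.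
Since `Cz 1 z = 1` inside and `= 0` outside: `Cz a (z s θ) = a θ + (integral)` for `s < 1`, `= (integral)` for `s > 1`.
`boundary_of_const`: immediate from `ray_tendsto`, `s → 1-`.
`N_sub`: `Ce a + conj Ce (conj a) = (2π i)⁻¹ ∫ (a t - a θ) (w - conj w) dt` with `w = σ'/(σ-σ θ)`, and
`w - conj w = 2 i Im w`, so this is `(1/π) ∫ (a t - a θ) Im w dt = ∫ k θ t (a t - a θ) dt = N a θ - a θ` by `k_mass`.
`inner_moment`: for `s < 1`, `Cz a (z s θ)` is, by Fubini, `(2π i)⁻¹ ∫ a t σ' t / (σ t - c - s (τ - c)) dt` with `τ = σ θ`;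
`∮ q(τ) dτ / (σ t - c - s (τ - c)) = 0` by `moment_outside` with pole `p = c + (σ t - c)/s`, outside. So
`∫ Cz a (z s θ) q(σ θ) dσ θ = 0`; let `s → 1-` (bounded convergence, limit `a + Ce a`).
-/

open Complex ComplexConjugate MeasureTheory Set Filter Topology Polynomial
open scoped Interval Real

noncomputable section

namespace Vale.Agent.Lib.P123.Crz

namespace Crv

variable (C : Crv)

/-- The ray from the center through a point of the curve. -/
def ray (c : ℂ) (s θ : ℝ) : ℂ := c + (s : ℂ) * (C.σ θ - c)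

theorem ray_eq_combo (c : ℂ) (s θ : ℝ) :
    C.ray c s θ = (s : ℂ) * C.σ θ + ((1 - s : ℝ) : ℂ) * c := by
  unfold ray; push_cast; ring

theorem lim_sd_ray (c : ℂ) (s θ t : ℝ) :
    C.sd (C.ray c s θ) t = s * C.sd (C.σ θ) t + (1 - s) * C.sd c t := by
  rw [ray_eq_combo]
  exact C.sd_combo s (1 - s) (by ring) _ _ t

theorem ray_inside {c : ℂ} (hc : C.Inside c) {s : ℝ} (h0 : 0 ≤ s) (h1 : s < 1) (θ : ℝ) :
    C.Inside (C.ray c s θ) := by
  intro t
  rw [lim_sd_ray]
  have h2 := C.sd_nonneg θ t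
  have h3 := hc t
  have h4 : 0 < (1 - s) * C.sd c t := mul_pos (by linarith) h3
  have h5 : 0 ≤ s * C.sd (C.σ θ) t := mul_nonneg h0 h2
  linarith

theorem ray_outside {c : ℂ} (hc : C.Inside c) {s : ℝ} (h1 : 1 < s) (θ : ℝ) :
    C.sd (C.ray c s θ) θ < 0 := by
  rw [lim_sd_ray, C.sd_σ_self]
  have h3 := hc θ
  have : (1 - s) * C.sd c θ < 0 := mul_neg_of_neg_of_pos (by linarith) h3
  linarith

theorem lim_continuous_sd (c : ℂ) : Continuous (C.sd c) := by
  unfold sd
  have := C.continuous_h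
  fun_prop

theorem lim_per_sd (c : ℂ) : Function.Periodic (C.sd c) (2 * π) := by
  intro t
  unfold sd
  have h1 : C.h (t + 2 * π) = C.h t := C.per t
  have h2 : exp (-(((t + 2 * π : ℝ) : ℂ) * I)) = exp (-((t : ℂ) * I)) := by
    have : -(((t + 2 * π : ℝ) : ℂ) * I) = -((t : ℂ) * I) + (-1 : ℤ) * (2 * π * I) := by
      push_cast; ring
    rw [this, Complex.exp_add, Complex.exp_int_mul_two_pi_mul_I, mul_one]
  rw [h1, h2]

theorem lim_exists_sd_lower {c : ℂ} (hc : C.Inside c) : ∃ d₀ : ℝ, 0 < d₀ ∧ ∀ t, d₀ ≤ C.sd c t := by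
  have hK := (C.lim_per_sd c).compact_of_continuous (by positivity) (C.lim_continuous_sd c)
  obtain ⟨m, ⟨⟨t0, rfl⟩, hm⟩⟩ := hK.exists_isLeast (Set.range_nonempty _)
  exact ⟨C.sd c t0, hc t0, fun t => hm ⟨t, rfl⟩⟩

theorem lim_exists_dist_bound (c : ℂ) : ∃ D : ℝ, 0 ≤ D ∧ ∀ θ, ‖C.σ θ - c‖ ≤ D := by
  have hp : Function.Periodic (fun θ => C.σ θ - c) (2 * π) := fun t => by
    simp only [C.per_σ t]
  have hb := hp.isBounded_of_continuous (by positivity) (C.continuous_σ.sub continuous_const)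
  obtain ⟨D, hD⟩ := isBounded_iff_forall_norm_le.1 hb
  refine ⟨max D 0, le_max_right _ _, fun θ => (hD _ ⟨θ, rfl⟩).trans (le_max_left _ _)⟩

theorem lim_norm_exp_neg (θ : ℝ) : ‖exp (-((θ : ℂ) * I))‖ = 1 := by
  have : -((θ : ℂ) * I) = ((-θ : ℝ) : ℂ) * I := by push_cast; ring
  rw [this, Complex.norm_exp_ofReal_mul_I]

theorem ray_bound {c : ℂ} (hc : C.Inside c) :
    ∃ c₁ : ℝ, 0 < c₁ ∧ ∀ s θ t : ℝ, 0 < s → s < 2 → c₁ * ‖C.σ t - C.σ θ‖ ≤ ‖C.σ t - C.ray c s θ‖ := by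
  obtain ⟨d₀, hd₀, hd⟩ := C.lim_exists_sd_lower hc
  obtain ⟨D, hD0, hD⟩ := C.lim_exists_dist_bound c
  refine ⟨d₀ / (d₀ + D), by positivity, ?_⟩
  intro s θ t hs0 _
  set ρ := ‖C.σ t - C.ray c s θ‖ with hρ
  set χ := ‖C.σ t - C.σ θ‖ with hχ
  have hρ0 : 0 ≤ ρ := norm_nonneg _
  -- (i) triangle
  have h1 : χ ≤ ρ + |s - 1| * D := by
    have e : C.σ t - C.σ θ = (C.σ t - C.ray c s θ) + ((s - 1 : ℝ) : ℂ) * (C.σ θ - c) := by
      unfold ray; push_cast; ring
    rw [hχ, e]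
    refine (norm_add_le _ _).trans ?_
    rw [norm_mul, Complex.norm_real, Real.norm_eq_abs]
    have := mul_le_mul_of_nonneg_left (hD θ) (abs_nonneg (s - 1))
    linarith
  -- (ii) lower bound
  have h2 : |s - 1| * d₀ ≤ ρ := by
    rcases le_total s 1 with hle | hle
    · rw [abs_of_nonpos (by linarith)]
      have h3 := C.sd_le_norm (C.ray c s θ) t
      rw [lim_sd_ray] at h3
      have h4 := C.sd_nonneg θ t
      have h5 : 0 ≤ s * C.sd (C.σ θ) t := mul_nonneg hs0.le h4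
      have h6 : (1 - s) * d₀ ≤ (1 - s) * C.sd c t := mul_le_mul_of_nonneg_left (hd t) (by linarith)
      nlinarith
    · rw [abs_of_nonneg (by linarith)]
      have e1 := C.re_mul_e (C.ray c s θ) θ
      have e2 := C.re_mul_e (C.σ t) θ
      have e3 : ((C.σ t - C.ray c s θ) * exp (-((θ : ℂ) * I))).re
          = C.sd (C.ray c s θ) θ - C.sd (C.σ t) θ := by
        rw [← e1, ← e2, ← Complex.sub_re, ← sub_mul]
        congr 2
        ring
      have e4 : C.sd (C.ray c s θ) θ = (1 - s) * C.sd c θ := by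
        rw [lim_sd_ray, C.sd_σ_self]; ring
      have h4 := C.sd_nonneg t θ
      have h5 : (s - 1) * d₀ ≤ (s - 1) * C.sd c θ := mul_le_mul_of_nonneg_left (hd θ) (by linarith)
      have h6 : ‖(C.σ t - C.ray c s θ) * exp (-((θ : ℂ) * I))‖ = ρ := by
        rw [norm_mul, lim_norm_exp_neg, mul_one]
      have h7 := Complex.abs_re_le_norm ((C.σ t - C.ray c s θ) * exp (-((θ : ℂ) * I)))
      rw [h6, e3, e4] at h7
      have h8 := neg_abs_le ((1 - s) * C.sd c θ - C.sd (C.σ t) θ)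
      have h9 := abs_le.1 h7
      nlinarith [h9.1]
  -- conclusion
  have hpos : 0 < d₀ + D := by positivity
  rw [div_mul_eq_mul_div, div_le_iff₀ hpos]
  have h3 : 0 ≤ |s - 1| := abs_nonneg _
  have h4 : D * (|s - 1| * d₀) ≤ D * ρ := mul_le_mul_of_nonneg_left h2 hD0
  have h5 : d₀ * χ ≤ d₀ * (ρ + |s - 1| * D) := mul_le_mul_of_nonneg_left h1 hd₀.le
  nlinarith

/-- The pole in the dual variable: `σ t - ray c s θ = - s (σ θ - pole)`. -/
theorem pole_inside {c : ℂ} (hc : C.Inside c) {s : ℝ} (h1 : 1 < s) (t : ℝ) :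
    C.Inside (c + (s : ℂ)⁻¹ * (C.σ t - c)) := by
  have h0 : (0 : ℝ) < s := by linarith
  have := C.ray_inside hc (s := s⁻¹) (inv_nonneg.2 h0.le) (inv_lt_one_of_one_lt₀ h1) t
  simpa [ray] using this

theorem pole_outside {c : ℂ} (hc : C.Inside c) {s : ℝ} (h0 : 0 < s) (h1 : s < 1) (t : ℝ) :
    ∃ t₀, C.sd (c + (s : ℂ)⁻¹ * (C.σ t - c)) t₀ < 0 := by
  refine ⟨t, ?_⟩
  have h2 : 1 < s⁻¹ := (one_lt_inv₀ h0).2 h1
  have := C.ray_outside hc h2 t
  simpa [ray] using this


theorem ray_one (c : ℂ) (θ : ℝ) : C.ray c 1 θ = C.σ θ := by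
  unfold ray; push_cast; ring

theorem lim_exists_near_shift (t θ : ℝ) : ∃ n : ℤ, |t + (n : ℝ) * (2 * π) - θ| ≤ π := by
  have hpos : (0 : ℝ) < 2 * π := by positivity
  refine ⟨round ((θ - t) / (2 * π)), ?_⟩
  have h := abs_sub_round ((θ - t) / (2 * π))
  have e : t + (round ((θ - t) / (2 * π)) : ℝ) * (2 * π) - θ
      = -(((θ - t) / (2 * π) - round ((θ - t) / (2 * π))) * (2 * π)) := by
    field_simp
    ring
  rw [e, abs_neg, abs_mul, abs_of_pos hpos]
  nlinarith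

theorem lim_per_of_LipPer {a : ℝ → ℂ} (ha : LipPer a) : Function.Periodic a (2 * π) := ha.2

theorem lim_cont_of_LipPer {a : ℝ → ℂ} (ha : LipPer a) : Continuous a := by
  obtain ⟨⟨L, hL⟩, _⟩ := ha
  exact hL.continuous

theorem lim_LipPer_ratio {a : ℝ → ℂ} (ha : LipPer a) :
    ∃ LA : ℝ, 0 ≤ LA ∧ ∀ θ t, ‖a t - a θ‖ ≤ LA * ‖C.σ t - C.σ θ‖ := by
  obtain ⟨⟨L, hL⟩, hp⟩ := ha
  have hκ := C.κ₀_pos
  refine ⟨L * (π / (2 * C.κ₀)), by positivity, ?_⟩
  intro θ t
  obtain ⟨n, hn⟩ := lim_exists_near_shift t θ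
  have h1 := C.chord_lower' hn
  have e1 : a (t + (n : ℝ) * (2 * π)) = a t := by
    have := (Function.Periodic.int_mul (f := a) (c := 2 * π) hp n) t
    simpa using this
  rw [C.per_σ_int] at h1
  have h2 := hL.dist_le_mul (t + (n : ℝ) * (2 * π)) θ
  rw [e1, dist_eq_norm, Real.dist_eq] at h2
  have h3 : |t + (n : ℝ) * (2 * π) - θ| ≤ (π / (2 * C.κ₀)) * ‖C.σ t - C.σ θ‖ := by
    have hpi := Real.pi_pos
    have : (π / (2 * C.κ₀)) * ((2 / π) * C.κ₀ * |t + (n : ℝ) * (2 * π) - θ|)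
        = |t + (n : ℝ) * (2 * π) - θ| := by
      field_simp
    calc |t + (n : ℝ) * (2 * π) - θ|
        = (π / (2 * C.κ₀)) * ((2 / π) * C.κ₀ * |t + (n : ℝ) * (2 * π) - θ|) := this.symm
      _ ≤ (π / (2 * C.κ₀)) * ‖C.σ t - C.σ θ‖ := mul_le_mul_of_nonneg_left h1 (by positivity)
  calc ‖a t - a θ‖ ≤ (L : ℝ) * |t + (n : ℝ) * (2 * π) - θ| := h2
    _ ≤ (L : ℝ) * ((π / (2 * C.κ₀)) * ‖C.σ t - C.σ θ‖) :=
        mul_le_mul_of_nonneg_left h3 (NNReal.coe_nonneg L)
    _ = (L : ℝ) * (π / (2 * C.κ₀)) * ‖C.σ t - C.σ θ‖ := by ring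

/-- A pointwise bound of the regularised integrand. -/
theorem lim_integrand_bound_of_ge {a : ℝ → ℂ} {LA κ₁ c₁ : ℝ} (hLA : 0 ≤ LA) (hκ₁ : ∀ t, C.κ t ≤ κ₁)
    (hc₁ : 0 < c₁) {θ t : ℝ} {z : ℂ} (ha : ‖a t - a θ‖ ≤ LA * ‖C.σ t - C.σ θ‖)
    (hz : c₁ * ‖C.σ t - C.σ θ‖ ≤ ‖C.σ t - z‖) :
    ‖(a t - a θ) * C.dσ t / (C.σ t - z)‖ ≤ LA * κ₁ / c₁ := by
  have hκ0 : 0 ≤ κ₁ := (C.κ₀_pos.le.trans (C.κ_lower t)).trans (hκ₁ t)
  rw [norm_div, norm_mul, C.norm_dσ]
  by_cases h0 : ‖C.σ t - z‖ = 0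
  · rw [h0, div_zero]; positivity
  have hpos : 0 < ‖C.σ t - z‖ := lt_of_le_of_ne (norm_nonneg _) (Ne.symm h0)
  rw [div_le_div_iff₀ hpos hc₁]
  have hκt : C.κ t ≤ κ₁ := hκ₁ t
  have hκt0 : 0 ≤ C.κ t := C.κ₀_pos.le.trans (C.κ_lower t)
  calc ‖a t - a θ‖ * C.κ t * c₁ ≤ (LA * ‖C.σ t - C.σ θ‖) * κ₁ * c₁ := by
        gcongr
    _ = LA * κ₁ * (c₁ * ‖C.σ t - C.σ θ‖) := by ring
    _ ≤ LA * κ₁ * ‖C.σ t - z‖ := by
        apply mul_le_mul_of_nonneg_left hz; positivity

/-- The integrand of `Ce` is bounded. -/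
theorem Ce_integrand_bound {a : ℝ → ℂ} (ha : LipPer a) :
    ∃ B : ℝ, ∀ θ t : ℝ, ‖(a t - a θ) * C.dσ t / (C.σ t - C.σ θ)‖ ≤ B := by
  obtain ⟨LA, hLA, hr⟩ := C.lim_LipPer_ratio ha
  obtain ⟨κ₁, _, hκ₁⟩ := C.exists_κ_upper
  refine ⟨LA * κ₁ / 1, fun θ t => ?_⟩
  exact C.lim_integrand_bound_of_ge hLA hκ₁ one_pos (hr θ t) (by simp)

theorem ray_integrand_bound {c : ℂ} (hc : C.Inside c) {a : ℝ → ℂ} (ha : LipPer a) :
    ∃ B : ℝ, ∀ s θ t : ℝ, 0 < s → s < 2 →
      ‖(a t - a θ) * C.dσ t / (C.σ t - C.ray c s θ)‖ ≤ B := by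
  obtain ⟨LA, hLA, hr⟩ := C.lim_LipPer_ratio ha
  obtain ⟨κ₁, _, hκ₁⟩ := C.exists_κ_upper
  obtain ⟨c₁, hc₁, hb⟩ := C.ray_bound hc
  exact ⟨LA * κ₁ / c₁, fun s θ t h0 h2 =>
    C.lim_integrand_bound_of_ge hLA hκ₁ hc₁ (hr θ t) (hb s θ t h0 h2)⟩

theorem lim_meas_integrand {a : ℝ → ℂ} (ha : Continuous a) (w z : ℂ) :
    Measurable fun t => (a t - w) * C.dσ t / (C.σ t - z) :=
  ((ha.measurable.sub_const _).mul C.continuous_dσ.measurable).div
    (C.continuous_σ.measurable.sub_const _)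

/-- Bounded measurable functions are interval integrable. -/
theorem lim_ii_of_bdd {f : ℝ → ℂ} (hm : Measurable f) {B : ℝ} (hb : ∀ t, ‖f t‖ ≤ B) (u v : ℝ) :
    IntervalIntegrable f volume u v := by
  have h0 : IntervalIntegrable (fun _ : ℝ => (B : ℝ)) volume u v := intervalIntegrable_const
  refine h0.mono_fun hm.aestronglyMeasurable (Eventually.of_forall fun t => ?_)
  have hB : 0 ≤ B := (norm_nonneg _).trans (hb t)
  simpa [abs_of_nonneg hB] using hb t

/-- `Ce a` of a Lipschitz periodic function is continuous and periodic. -/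
theorem Ce_per {a : ℝ → ℂ} (ha : LipPer a) : Per (C.Ce a) := by
  constructor
  · unfold Ce
    refine continuous_const.mul (continuous_iff_continuousAt.2 fun θ0 => ?_)
    obtain ⟨B, hB⟩ := C.Ce_integrand_bound ha
    have hac := lim_cont_of_LipPer ha
    refine intervalIntegral.continuousAt_of_dominated_interval (bound := fun _ => B)
      (Eventually.of_forall fun θ => (C.lim_meas_integrand hac _ _).aestronglyMeasurable)
      (Eventually.of_forall fun θ => Eventually.of_forall fun t _ => hB θ t)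
      intervalIntegrable_const ?_
    have hE := (Set.countable_range (fun n : ℤ => θ0 + (n : ℝ) * (2 * π))).ae_notMem volume
    filter_upwards [hE] with t ht _
    have hne : C.σ t - C.σ θ0 ≠ 0 := C.chord_ne (fun ⟨n, hn⟩ => ht ⟨n, hn.symm⟩)
    have hσ := C.continuous_σ
    refine ContinuousAt.div ?_ ?_ hne
    · exact ((continuousAt_const.sub hac.continuousAt).mul continuousAt_const)
    · exact continuousAt_const.sub hσ.continuousAt
  · intro θ
    unfold Ce
    simp only [ha.2 θ, C.per_σ θ]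

/-- The regularised Cauchy transform along a ray tends to `Ce`, with a uniform bound. -/
theorem ray_tendsto {c : ℂ} (hc : C.Inside c) {a : ℝ → ℂ} (ha : LipPer a) (θ : ℝ) :
    Tendsto (fun s : ℝ => (2 * π * I)⁻¹ *
        ∫ t in (0 : ℝ)..(2 * π), (a t - a θ) * C.dσ t / (C.σ t - C.ray c s θ))
      (𝓝[≠] 1) (𝓝 (C.Ce a θ)) := by
  unfold Ce
  refine Tendsto.const_mul _ ?_
  obtain ⟨B, hB⟩ := C.ray_integrand_bound hc ha
  have hac := lim_cont_of_LipPer ha
  refine intervalIntegral.tendsto_integral_filter_of_dominated_convergence (fun _ => B)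
    (Eventually.of_forall fun s => (C.lim_meas_integrand hac _ _).aestronglyMeasurable) ?_
    intervalIntegrable_const (Eventually.of_forall fun t _ => ?_)
  · have hmem : Set.Ioo (0 : ℝ) 2 ∈ 𝓝 (1 : ℝ) := Ioo_mem_nhds (by norm_num) (by norm_num)
    filter_upwards [mem_nhdsWithin_of_mem_nhds hmem] with s hs
    exact Eventually.of_forall fun t _ => hB s θ t hs.1 hs.2
  · by_cases ht : ∃ n : ℤ, t = θ + (n : ℝ) * (2 * π)
    · obtain ⟨n, rfl⟩ := ht
      have e1 : a (θ + (n : ℝ) * (2 * π)) = a θ := by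
        have := (Function.Periodic.int_mul (f := a) (c := 2 * π) ha.2 n) θ
        simpa using this
      simp [e1]
    · have hne : C.σ t - C.σ θ ≠ 0 := C.chord_ne ht
      have hcont : ContinuousAt (fun s : ℝ => (a t - a θ) * C.dσ t / (C.σ t - C.ray c s θ)) 1 := by
        refine ContinuousAt.div continuousAt_const ?_ (by rwa [ray_one])
        unfold ray
        fun_prop
      have := hcont.tendsto
      simp only [ray_one] at this
      exact this.mono_left nhdsWithin_le_nhds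

theorem ray_integral_bound {c : ℂ} (hc : C.Inside c) {a : ℝ → ℂ} (ha : LipPer a) :
    ∃ B : ℝ, ∀ s θ : ℝ, 0 < s → s < 2 → s ≠ 1 → ‖(2 * π * I)⁻¹ *
        ∫ t in (0 : ℝ)..(2 * π), (a t - a θ) * C.dσ t / (C.σ t - C.ray c s θ)‖ ≤ B := by
  obtain ⟨B, hB⟩ := C.ray_integrand_bound hc ha
  refine ⟨‖(2 * π * I : ℂ)⁻¹‖ * (B * |2 * π - 0|), fun s θ h0 h2 _ => ?_⟩
  rw [norm_mul]
  apply mul_le_mul_of_nonneg_left _ (norm_nonneg _)
  exact intervalIntegral.norm_integral_le_of_norm_le_const fun t _ => hB s θ t h0 h2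

/-- Auxiliary: splitting the regularised integral at a point off the curve. -/
theorem lim_integral_split {a : ℝ → ℂ} (ha : Continuous a) {z : ℂ} (hz : ∀ t, C.σ t - z ≠ 0) (w : ℂ) :
    ∫ t in (0 : ℝ)..(2 * π), (a t - w) * C.dσ t / (C.σ t - z)
      = (∫ t in (0 : ℝ)..(2 * π), a t * C.dσ t / (C.σ t - z))
        - w * ∫ t in (0 : ℝ)..(2 * π), C.dσ t / (C.σ t - z) := by
  have hd := C.continuous_dσ
  have hs := C.continuous_σ
  have hden : Continuous fun t => C.σ t - z := hs.sub continuous_const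
  have h1 : Continuous fun t => a t * C.dσ t / (C.σ t - z) := (ha.mul hd).div hden hz
  have h2 : Continuous fun t => C.dσ t / (C.σ t - z) := hd.div hden hz
  rw [← intervalIntegral.integral_const_mul,
    ← intervalIntegral.integral_sub (h1.intervalIntegrable _ _)
      ((h2.const_mul w).intervalIntegrable _ _)]
  congr 1
  ext t
  ring

/-- Exterior: `Cz a (ray c s θ)` is the regularised integral for `s > 1`. -/
theorem Cz_ray_ext {c : ℂ} (hc : C.Inside c) {a : ℝ → ℂ} (ha : LipPer a) {s : ℝ} (h1 : 1 < s) (θ : ℝ) :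
    C.Cz a (C.ray c s θ) = (2 * π * I)⁻¹ *
        ∫ t in (0 : ℝ)..(2 * π), (a t - a θ) * C.dσ t / (C.σ t - C.ray c s θ) := by
  have hout := C.ray_outside hc h1 θ
  rw [C.lim_integral_split (lim_cont_of_LipPer ha) (fun t => C.ne_of_outside hout t), C.wind_outside hout]
  simp [Cz]

theorem lim_two_pi_I_ne : (2 * π * I : ℂ) ≠ 0 := by
  simp [Real.pi_ne_zero]

/-- Interior: `Cz a (ray c s θ)` is `a θ` plus the regularised integral for `s < 1`. -/
theorem Cz_ray_int {c : ℂ} (hc : C.Inside c) {a : ℝ → ℂ} (ha : LipPer a) {s : ℝ} (h0 : 0 < s) (h1 : s < 1)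
    (θ : ℝ) :
    C.Cz a (C.ray c s θ) = a θ + (2 * π * I)⁻¹ *
        ∫ t in (0 : ℝ)..(2 * π), (a t - a θ) * C.dσ t / (C.σ t - C.ray c s θ) := by
  have hin := C.ray_inside hc h0.le h1 θ
  rw [C.lim_integral_split (lim_cont_of_LipPer ha) (fun t => Inside.ne hin t), C.wind_inside hin]
  unfold Cz
  have := lim_two_pi_I_ne
  field_simp
  ring

/-- If the Cauchy transform is constant inside, the interior boundary value is that constant. -/
theorem boundary_of_const (c₀ : ℂ) {c : ℂ} (hc : C.Inside c) {a : ℝ → ℂ} (ha : LipPer a)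
    (h : ∀ z, C.Inside z → C.Cz a z = c₀) (θ : ℝ) : a θ + C.Ce a θ = c₀ := by
  have h1 := C.ray_tendsto hc ha θ
  have h2 : Tendsto (fun s : ℝ => a θ + (2 * π * I)⁻¹ *
        ∫ t in (0 : ℝ)..(2 * π), (a t - a θ) * C.dσ t / (C.σ t - C.ray c s θ))
      (𝓝[<] 1) (𝓝 (a θ + C.Ce a θ)) := by
    refine Tendsto.const_add _ (h1.mono_left ?_)
    exact nhdsWithin_mono _ (fun x hx => (ne_of_lt hx))
  have h3 : Tendsto (fun s : ℝ => a θ + (2 * π * I)⁻¹ *
        ∫ t in (0 : ℝ)..(2 * π), (a t - a θ) * C.dσ t / (C.σ t - C.ray c s θ))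
      (𝓝[<] 1) (𝓝 c₀) := by
    refine tendsto_const_nhds.congr' ?_
    have hmem : Set.Ioo (0 : ℝ) 1 ∈ 𝓝[<] (1 : ℝ) := Ioo_mem_nhdsLT (by norm_num)
    filter_upwards [hmem] with s hs
    rw [← C.Cz_ray_int hc ha hs.1 hs.2 θ]
    exact (h _ (C.ray_inside hc hs.1.le hs.2 θ)).symm
  exact tendsto_nhds_unique h2 h3

/-- The double layer identity on the curve. -/
theorem N_sub {a : ℝ → ℂ} (ha : LipPer a) (θ : ℝ) :
    C.N a θ - a θ = C.Ce a θ + conj (C.Ce (cj a) θ) := by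
  have hac := lim_cont_of_LipPer ha
  obtain ⟨B, hB⟩ := C.Ce_integrand_bound ha
  -- the two integrands
  set f : ℝ → ℂ := fun t => (a t - a θ) * C.dσ t / (C.σ t - C.σ θ) with hf
  set g : ℝ → ℂ := fun t => (a t - a θ) * conj (C.dσ t / (C.σ t - C.σ θ)) with hg
  have hfm : Measurable f := C.lim_meas_integrand hac _ _
  have hgm : Measurable g := by
    have h1 : Measurable fun t => C.dσ t / (C.σ t - C.σ θ) :=
      C.continuous_dσ.measurable.div (C.continuous_σ.measurable.sub_const _)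
    exact (hac.measurable.sub_const _).mul (continuous_conj.measurable.comp h1)
  have hgb : ∀ t, ‖g t‖ ≤ B := by
    intro t
    have := hB θ t
    simp only [hg, norm_mul, RCLike.norm_conj, norm_div] at this ⊢
    simpa [norm_div, norm_mul, mul_div_assoc] using this
  have hfi := lim_ii_of_bdd hfm (hB θ) 0 (2 * π)
  have hgi := lim_ii_of_bdd hgm hgb 0 (2 * π)
  -- `conj` of the second transform
  have e1 : conj (C.Ce (cj a) θ) = -(2 * π * I)⁻¹ * ∫ t in (0 : ℝ)..(2 * π), g t := by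
    unfold Ce
    rw [map_mul, ← intervalIntegral.intervalIntegral_conj]
    have e2 : conj ((2 * π * I : ℂ)⁻¹) = -(2 * π * I)⁻¹ := by
      have h2 : conj (2 : ℂ) = 2 := by simpa using Complex.conj_ofReal 2
      rw [map_inv₀, map_mul, map_mul, Complex.conj_I, Complex.conj_ofReal, h2]
      rw [← inv_neg]
      congr 1
      ring
    rw [e2]
    congr 2
    ext t
    simp only [cj, hg]
    rw [map_div₀, map_mul, map_sub, map_div₀, Complex.conj_conj, Complex.conj_conj]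
    ring
  have hk0 : Continuous fun t : ℝ => ((C.k θ t : ℝ) : ℂ) := by
    have h1 := C.k_continuous
    have h2 : Continuous fun t => C.k θ t := h1.comp (continuous_const.prodMk continuous_id)
    exact Complex.continuous_ofReal.comp h2
  have e3 : ∫ t in (0 : ℝ)..(2 * π), (C.k θ t : ℂ) = 1 := by
    rw [intervalIntegral.integral_ofReal, C.k_mass]
    simp
  have e4 : C.N a θ - a θ = ∫ t in (0 : ℝ)..(2 * π), (C.k θ t : ℂ) * (a t - a θ) := by
    have : ∀ t, (C.k θ t : ℂ) * (a t - a θ) = (C.k θ t : ℂ) * a t - a θ * (C.k θ t : ℂ) := by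
      intro t; ring
    simp_rw [this]
    have h1 : Continuous fun t : ℝ => ((C.k θ t : ℝ) : ℂ) * a t := hk0.mul hac
    have h2 : Continuous fun t : ℝ => a θ * ((C.k θ t : ℝ) : ℂ) := continuous_const.mul hk0
    rw [intervalIntegral.integral_sub (h1.intervalIntegrable _ _) (h2.intervalIntegrable _ _),
      intervalIntegral.integral_const_mul, e3]
    simp [N]
  have e5 : ∀ t, (C.k θ t : ℂ) * (a t - a θ) = (2 * π * I)⁻¹ * (f t - g t) := by
    intro t
    by_cases ht : ∃ n : ℤ, t = θ + (n : ℝ) * (2 * π)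
    · obtain ⟨n, rfl⟩ := ht
      have e1 : a (θ + (n : ℝ) * (2 * π)) = a θ := by
        have := (Function.Periodic.int_mul (f := a) (c := 2 * π) ha.2 n) θ
        simpa using this
      simp [hf, hg, e1]
    · rw [C.k_off ht]
      simp only [hf, hg]
      have e6 : (a t - a θ) * C.dσ t / (C.σ t - C.σ θ)
          - (a t - a θ) * conj (C.dσ t / (C.σ t - C.σ θ))
          = (a t - a θ) * ((C.dσ t / (C.σ t - C.σ θ)) - conj (C.dσ t / (C.σ t - C.σ θ))) := by
        ring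
      rw [e6, Complex.sub_conj]
      push_cast
      have hpi : (π : ℂ) ≠ 0 := by exact_mod_cast Real.pi_ne_zero
      field_simp
  rw [e4, e1]
  have e7 : C.Ce a θ = (2 * π * I)⁻¹ * ∫ t in (0 : ℝ)..(2 * π), f t := rfl
  rw [e7]
  simp_rw [e5]
  rw [intervalIntegral.integral_const_mul, intervalIntegral.integral_sub hfi hgi]
  ring

/-- Interior boundary values are orthogonal to all polynomials. -/
theorem inner_moment {c : ℂ} (hc : C.Inside c) {a : ℝ → ℂ} (ha : LipPer a) (q : ℂ[X]) :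
    ∫ t in (0 : ℝ)..(2 * π), (a t + C.Ce a t) * q.eval (C.σ t) * C.dσ t = 0 := by
  have hac := lim_cont_of_LipPer ha
  have hσ := C.continuous_σ
  have hd := C.continuous_dσ
  set Q : ℝ → ℂ := fun t => q.eval (C.σ t) * C.dσ t with hQ
  have hQc : Continuous Q := (q.continuous.comp hσ).mul hd
  have hQp : Function.Periodic Q (2 * π) := fun t => by
    simp only [hQ, C.per_σ t, C.per_dσ t]
  obtain ⟨BQ, hBQ⟩ := isBounded_iff_forall_norm_le.1 (hQp.isBounded_of_continuous (by positivity) hQc)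
  have hBQ' : ∀ t, ‖Q t‖ ≤ BQ := fun t => hBQ _ ⟨t, rfl⟩
  obtain ⟨Ba, hBa⟩ := isBounded_iff_forall_norm_le.1
    ((lim_per_of_LipPer ha).isBounded_of_continuous (by positivity) hac)
  have hBa' : ∀ t, ‖a t‖ ≤ Ba := fun t => hBa _ ⟨t, rfl⟩
  obtain ⟨B, hB⟩ := C.ray_integral_bound hc ha
  -- continuity of the integrand for `s` in `(0,1)`
  have hcontF : ∀ s : ℝ, 0 < s → s < 1 →
      Continuous (Function.uncurry fun (θ t : ℝ) => a t * C.dσ t / (C.σ t - C.ray c s θ)) := by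
    intro s h0 h1
    have hden : Continuous fun p : ℝ × ℝ => C.σ p.2 - C.ray c s p.1 := by
      unfold ray
      fun_prop
    refine Continuous.div ?_ hden ?_
    · exact (hac.comp continuous_snd).mul (hd.comp continuous_snd)
    · intro p
      exact Inside.ne (C.ray_inside hc h0.le h1 p.1) p.2
  have hcontCz : ∀ s : ℝ, 0 < s → s < 1 → Continuous fun θ => C.Cz a (C.ray c s θ) := by
    intro s h0 h1
    unfold Cz
    exact continuous_const.mul
      (intervalIntegral.continuous_parametric_intervalIntegral_of_continuous' (hcontF s h0 h1) _ _)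
  -- the integral vanishes for `s < 1` (Fubini)
  have hzero : ∀ s : ℝ, 0 < s → s < 1 →
      ∫ θ in (0 : ℝ)..(2 * π), C.Cz a (C.ray c s θ) * Q θ = 0 := by
    intro s h0 h1
    have hsne : (s : ℂ) ≠ 0 := by exact_mod_cast h0.ne'
    have e1 : ∀ θ, C.Cz a (C.ray c s θ) * Q θ = (2 * π * I)⁻¹ *
        ∫ t in (0 : ℝ)..(2 * π), a t * C.dσ t / (C.σ t - C.ray c s θ) * Q θ := by
      intro θ
      rw [intervalIntegral.integral_mul_const]
      unfold Cz
      ring
    simp_rw [e1]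
    rw [intervalIntegral.integral_const_mul]
    have hFc : Continuous (Function.uncurry fun (θ t : ℝ) =>
        a t * C.dσ t / (C.σ t - C.ray c s θ) * Q θ) :=
      (hcontF s h0 h1).mul (hQc.comp continuous_fst)
    rw [MeasureTheory.intervalIntegral_intervalIntegral_swap]
    · have e2 : ∀ t, ∫ θ in (0 : ℝ)..(2 * π), a t * C.dσ t / (C.σ t - C.ray c s θ) * Q θ = 0 := by
        intro t
        obtain ⟨t₀, ht₀⟩ := C.pole_outside hc h0 h1 t
        set p : ℂ := c + (s : ℂ)⁻¹ * (C.σ t - c) with hp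
        have e3 : ∀ θ, a t * C.dσ t / (C.σ t - C.ray c s θ) * Q θ
            = (a t * C.dσ t * (-(s : ℂ)⁻¹)) * (q.eval (C.σ θ) * C.dσ θ / (C.σ θ - p)) := by
          intro θ
          have e4 : C.σ t - C.ray c s θ = -(s : ℂ) * (C.σ θ - p) := by
            simp only [hp, ray]
            field_simp
            ring
          rw [e4]
          simp only [hQ]
          by_cases hz : C.σ θ - p = 0
          · simp [hz]
          · field_simp
        simp_rw [e3]
        rw [intervalIntegral.integral_const_mul, C.moment_outside ht₀ q, mul_zero]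
      simp [e2]
    · have hK : IsCompact ((uIcc (0 : ℝ) (2 * π)) ×ˢ (uIcc (0 : ℝ) (2 * π))) :=
        isCompact_uIcc.prod isCompact_uIcc
      exact (hFc.continuousOn.integrableOn_compact hK).mono_set
        (Set.prod_mono Set.uIoc_subset_uIcc Set.uIoc_subset_uIcc)
  -- the limit
  have hmem : Set.Ioo (0 : ℝ) 1 ∈ 𝓝[<] (1 : ℝ) := Ioo_mem_nhdsLT (by norm_num)
  have hlim : Tendsto (fun s : ℝ => ∫ θ in (0 : ℝ)..(2 * π), C.Cz a (C.ray c s θ) * Q θ)
      (𝓝[<] 1) (𝓝 (∫ θ in (0 : ℝ)..(2 * π), (a θ + C.Ce a θ) * Q θ)) := by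
    refine intervalIntegral.tendsto_integral_filter_of_dominated_convergence
      (fun _ => (Ba + B) * BQ) ?_ ?_ intervalIntegrable_const ?_
    · filter_upwards [hmem] with s hs
      exact ((hcontCz s hs.1 hs.2).mul hQc).aestronglyMeasurable
    · filter_upwards [hmem] with s hs
      refine Eventually.of_forall fun θ _ => ?_
      rw [norm_mul, C.Cz_ray_int hc ha hs.1 hs.2 θ]
      have h1 := hB s θ hs.1 (by linarith [hs.2]) (ne_of_lt hs.2)
      have h2 := hBa' θ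
      have h3 := hBQ' θ
      have h4 := norm_add_le (a θ) ((2 * π * I)⁻¹ *
        ∫ t in (0 : ℝ)..(2 * π), (a t - a θ) * C.dσ t / (C.σ t - C.ray c s θ))
      have h0B : 0 ≤ BQ := (norm_nonneg _).trans h3
      calc _ ≤ (Ba + B) * ‖Q θ‖ := mul_le_mul_of_nonneg_right (by linarith) (norm_nonneg _)
        _ ≤ (Ba + B) * BQ := by
            apply mul_le_mul_of_nonneg_left h3
            have := (norm_nonneg (a θ)).trans h2
            have h5 := (norm_nonneg _).trans h1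
            linarith
    · refine Eventually.of_forall fun θ _ => ?_
      refine Tendsto.mul_const _ ?_
      have h1 := (C.ray_tendsto hc ha θ).mono_left
        (nhdsWithin_mono (1 : ℝ) (fun x (hx : x < 1) => ne_of_lt hx))
      refine (Tendsto.const_add (a θ) h1).congr' ?_
      filter_upwards [hmem] with s hs
      exact (C.Cz_ray_int hc ha hs.1 hs.2 θ).symm
  have h0 : Tendsto (fun s : ℝ => ∫ θ in (0 : ℝ)..(2 * π), C.Cz a (C.ray c s θ) * Q θ)
      (𝓝[<] 1) (𝓝 0) := by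
    refine tendsto_const_nhds.congr' ?_
    filter_upwards [hmem] with s hs
    exact (hzero s hs.1 hs.2).symm
  have h2 := tendsto_nhds_unique hlim h0
  rw [← h2]
  congr 1
  ext t
  simp only [hQ]
  ring

end Crv

end Vale.Agent.Lib.P123.Crz
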