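import Vale.Agent.Lib.P123.Crz.HmBasic
import Vale.Agent.Lib.P123.Crz.Limit

/-!
# Module HMCE: exterior boundary values lie in `H₋`

Paper proofs.
`Ce_rat`: `Rat e → Ce e = -e`, from `boundary_of_const` with `c₀ = 0`, `Rat.Cz_eq_zero`, `Rat.lipPer`.
`Hm_Ce`: for `a` Lipschitz periodic and `s > 1`, `Y_s θ = Cz a (ray c s θ) = (2π i)⁻¹ ∫ a t σ' t / (σ t - c - s (σ θ - c)) dt
  = - (2π i s)⁻¹ ∫ a t σ' t / (σ θ - p t) dt`, with `p t = c + (σ t - c)/s` inside (`pole_inside`).  By uniform continuity of the integrand on `[0,2π]²`, the Riemann sums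
converge uniformly in `θ`, each is `Rat` (`Rat.kernel`, `Rat.add`, `Rat.smul`), so `Hm E Y_s` (`Hm_closed`).  By `Cz_ray_ext`, `ray_tendsto`, `ray_integral_bound` and dominated convergence, `Q (Y_s - Ce a) → 0` as `s → 1+`.
So `Hm E (Ce a)` (`Ce_per`, `Hm_closed`).
`N_conj_rat`: `N (cj e) = Ce (cj e)`, from `N_sub` applied to `cj e`: `N (cj e) - cj e = Ce (cj e) + conj (Ce e) = Ce (cj e) - cj e`.  So it is in `Hm` by `Hm_Ce`.
`N_conj_Hm`: for `a ∈ Hm`, `e` near `a`: `N (cj a) - N (cj e) = N (cj (a - e))` and `Q (N x) ≤ Q x`, `Q (cj x) = Q x`; `Hm_closed`.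
-/

open Complex ComplexConjugate MeasureTheory Set Filter Topology Polynomial
open scoped Interval Real

noncomputable section

namespace Vale.Agent.Lib.P123.Crz

variable {C : Crv} {E : Equil C}

theorem Ce_rat {e : ℝ → ℂ} (he : Rat C e) : C.Ce e = fun t => - e t := by sorry
/-- Exterior boundary values lie in `H₋`. -/
theorem Hm_Ce {a : ℝ → ℂ} (ha : LipPer a) : Hm E (C.Ce a) := by sorry
theorem N_conj_rat {e : ℝ → ℂ} (he : Rat C e) : Hm E (C.N (cj e)) := by sorry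
theorem N_conj_Hm {a : ℝ → ℂ} (ha : Hm E a) : Hm E (C.N (cj a)) := by sorry

end Vale.Agent.Lib.P123.Crz
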