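import Vale.Agent.Lib.P123.Crz.Wind

/-!
# Module RESOLVENT: a finite dimensional operator whose numerical range is inside the curve

`V` finite dimensional complex inner product space, `A : V →L[ℂ] V`, `hin : ∀ x, ‖x‖ = 1 → C.Inside ⟪x, A x⟫`.
`T t = Ring.inverse (σ t • 1 - A)`.

Paper proofs.
`isUnit_sub`: if `(z - A) x = 0`, `x` unit, then `z = ⟪x, A x⟫`, inside, but `sd (σ t) t = 0`: contradiction.  So `σ t - A` is injective, hence invertible (finite dimension).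
`charpoly_roots`: a root `p` of `charpoly A` is an eigenvalue, `A x = p x`, `x` unit, `p = ⟪x, A x⟫`.
For a polynomial `f = Σ f_k X^k`: `f(z) - f(A) = (z - A) Σ_k f_k Σ_{i+j=k-1} z^i A^j` (`Commute.geom_sum₂_mul`), so with `Q_f(z) = Σ_k f_k Σ_{i+j=k-1} z^i A^j`: `f(z) T = T f(A) + Q_f(z)` whenever `T = (z-A)⁻¹`.
`poly_resolvent`: `q = Σ_k f_k Σ_{i+j=k-1} ⟪b, A^j a⟫ X^i`.
`resolvent_rat`: apply this to `f = r = charpoly A` (monic of degree `n = finrank`, `r(A) = 0` by Cayley-Hamilton): `r(σ) ⟪b, T a⟫ = q(σ)`, `deg q ≤ n-1`, and `q.coeff (n-1) = ⟪b, a⟫`.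
`re_pos`: `ξ = T v`, `v = (σ-A) ξ`: `⟪v, T v⟫ = ⟪(σ-A) ξ, ξ⟫ = conj ⟪ξ, (σ-A) ξ⟫`; `σ'/i = e^{it} κ`; so
`Re (σ' ⟪v, T v⟫ / i) = κ Re (e^{-it} ⟪ξ, (σ-A) ξ⟫) = κ (h(t) ‖ξ‖² - Re (e^{-it} ⟪ξ, A ξ⟫)) = κ ‖ξ‖² sd ⟪ξ₁, A ξ₁⟫ t ≥ 0`, `ξ₁ = ξ/‖ξ‖`.
`S a b := c ⟪b, T a⟫ + conj (c ⟪a, T b⟫)` with `c = σ'/(2π i ρ)`, `ρ > 0`, is a Hermitian positive form; Cauchy-Schwarz `|S x y|² ≤ S x x · S y y`.
-/

open Complex ComplexConjugate MeasureTheory Set Filter Topology Polynomial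
open scoped Interval Real InnerProductSpace

noncomputable section

namespace Vale.Agent.Lib.P123.Crz

variable {V : Type*} [NormedAddCommGroup V] [InnerProductSpace ℂ V] [FiniteDimensional ℂ V]

/-- The resolvent at the point `σ t` of the curve. -/
def Tr (C : Crv) (A : V →L[ℂ] V) (t : ℝ) : V →L[ℂ] V :=
  Ring.inverse ((C.σ t) • (1 : V →L[ℂ] V) - A)

variable (C : Crv) (A : V →L[ℂ] V) (hin : ∀ x : V, ‖x‖ = 1 → C.Inside ⟪x, A x⟫_ℂ)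
include hin

theorem isUnit_sub (t : ℝ) : IsUnit ((C.σ t) • (1 : V →L[ℂ] V) - A) := by sorry
theorem Tr_sub (t : ℝ) (v : V) : Tr C A t ((C.σ t) • v - A v) = v := by sorry
theorem sub_Tr (t : ℝ) (v : V) : (C.σ t) • (Tr C A t v) - A (Tr C A t v) = v := by sorry
theorem Tr_continuous (a b : V) : Continuous (fun t => ⟪b, Tr C A t a⟫_ℂ) := by sorry
/-- The resolvent commutes with polynomials of `A`. -/
theorem Tr_comm (f : ℂ[X]) (t : ℝ) (v : V) :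
    Tr C A t (Polynomial.aeval A f v) = Polynomial.aeval A f (Tr C A t v) := by sorry
theorem Tr_per (a b : V) (t : ℝ) : ⟪b, Tr C A (t + 2 * π) a⟫_ℂ = ⟪b, Tr C A t a⟫_ℂ := by sorry

/-- The roots of the characteristic polynomial are inside. -/
theorem charpoly_roots (p : ℂ) (hp : (LinearMap.charpoly (A : V →ₗ[ℂ] V)).IsRoot p) : C.Inside p := by sorry

/-- `f(σ) T = T f(A) + polynomial in σ`. -/
theorem poly_resolvent (f : ℂ[X]) (a b : V) : ∃ q : ℂ[X], ∀ t,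
    f.eval (C.σ t) * ⟪b, Tr C A t a⟫_ℂ = ⟪b, Tr C A t (Polynomial.aeval A f a)⟫_ℂ + q.eval (C.σ t) := by sorry

/-- Resolvent entries are rational functions of `σ`, vanishing at infinity, with the expected leading
coefficient. -/
theorem resolvent_rat [Nontrivial V] (a b : V) : ∃ q : ℂ[X],
    q.degree < (LinearMap.charpoly (A : V →ₗ[ℂ] V)).degree ∧
    q.coeff ((LinearMap.charpoly (A : V →ₗ[ℂ] V)).natDegree - 1) = ⟪b, a⟫_ℂ ∧
    ∀ t, ⟪b, Tr C A t a⟫_ℂ =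
      q.eval (C.σ t) / (LinearMap.charpoly (A : V →ₗ[ℂ] V)).eval (C.σ t) := by sorry

/-- The positivity of the double layer measure. -/
theorem re_pos (v : V) (t : ℝ) : 0 ≤ (C.dσ t * ⟪v, Tr C A t v⟫_ℂ / I).re := by sorry

/-- Cauchy Schwarz for the double layer form. -/
theorem form_cs (x y : V) (t : ℝ) (ρ : ℝ) (hρ : 0 < ρ) :
    ‖C.dσ t * ⟪y, Tr C A t x⟫_ℂ / (2 * π * I * (ρ : ℂ))
        + conj (C.dσ t * ⟪x, Tr C A t y⟫_ℂ / (2 * π * I * (ρ : ℂ)))‖ ^ 2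
      ≤ (2 * (C.dσ t * ⟪x, Tr C A t x⟫_ℂ / (2 * π * I * (ρ : ℂ))).re)
        * (2 * (C.dσ t * ⟪y, Tr C A t y⟫_ℂ / (2 * π * I * (ρ : ℂ))).re) := by sorry

end Vale.Agent.Lib.P123.Crz
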