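import Vale.Agent.Lib.P123.Crz.Chain
import Vale.Agent.Lib.P123.Crz.Resolvent

/-!
# Module MAIN: Crouzeix's inequality with constant two for a curve

Paper proof.  `K = ‖f(A)‖`; if `K = 0` done (`M ≥ 0` from `hf`).  Unit `x` with `‖f(A) x‖ = K` (compactness of the sphere), `y = f(A) x / K`; `f(A)* y = K x`
(`⟪x, f* f x⟫ = K²`, `‖f* f x‖ ≤ K²`, equality in Cauchy-Schwarz).
Commutation gives `⟪x, T x⟫ = ⟪y, T y⟫` pointwise: `K ⟪x, T x⟫ = ⟪f* y, T x⟫ = ⟪y, f(A) T x⟫ = ⟪y, T f(A) x⟫ = K ⟪y, T y⟫`.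
`E` from `exists_equil`.  `r = charpoly`.  `e_ab = ⟪b, T a⟫`, `v_ab = vv E e_ab`, `Bb E v_ab ⟪b, a⟫` (`resolvent_rat`, `vv_Bb`).
`u = v_xx`, `a = u - 1`, `Hm E a`.  `v = v_xy`, with constant `⟪y, x⟫`; `v' = v_yx`, with constant `⟪x, y⟫`; product of constants is `|⟪x,y⟫|²`.
Pointwise: `form_cs`, with `v_yy = v_xx = u`, gives `|v + conj v'| ≤ 2 Re u`.
`g = f(σ)`, `|g| ≤ M`.  `b = (conj u + N (conj u))/2`, orthogonal to polynomials (`b_moment`, `N 1 = 1`, `poly_moment`).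
`poly_resolvent`: `f(σ) e_xy = e_{f(A) x, y} + q(σ) = K e_yy + q(σ) = K e_xx + q(σ)`.  So `F (b g v) = (2π i)⁻¹ ∫ b f(σ) e_xy dσ = K (2π i)⁻¹ ∫ b e_xx dσ + (2π i)⁻¹ ∫ b q(σ) dσ = K F (b u)`.
`chain` gives `K ≤ 2 M`.
-/

open Complex ComplexConjugate MeasureTheory Set Filter Topology Polynomial
open scoped Interval Real InnerProductSpace

noncomputable section

namespace Vale.Agent.Lib.P123.Crz

variable {V : Type*} [NormedAddCommGroup V] [InnerProductSpace ℂ V] [FiniteDimensional ℂ V]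

theorem curve_main (C : Crv) (A : V →L[ℂ] V) (hin : ∀ x : V, ‖x‖ = 1 → C.Inside ⟪x, A x⟫_ℂ)
    (f : ℂ[X]) (M : ℝ) (hf : ∀ t, ‖f.eval (C.σ t)‖ ≤ M) :
    ‖Polynomial.aeval A f‖ ≤ 2 * M := by
  sorry

end Vale.Agent.Lib.P123.Crz
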