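import Vale.Agent.Lib.P123.Crz.Curve

/-!
# Module WIND: winding numbers and rational functions on the curve

Paper proofs.
`wind_inside`: `y(t) = (σ t - p) e^{-it}` has `Re y = sd p t > 0` (`re_mul_e`), is `C¹` and periodic;
`σ'/(σ-p) = i + y'/y`, and `y'/y` has the periodic primitive `log y` (principal branch, `y` in slitPlane).
So the integral over a period is `2π i`.
`wind_outside`: `y(t) = (p - σ t) e^{-i t₀}` has `Re y = -sd p t₀ + sd (σ t) t₀ > 0` (`sd_nonneg`), again a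
periodic primitive `log y` of `σ'/(σ-p)`; the integral is `0`.
`poly_moment`: `q(σ) σ'` has the periodic primitive `Q(σ)`.
`rat_moment` by induction on `deg r`: `r = (X-p) r₁`.  If `deg q ≤ deg r - 1` write `q = q(p) + (X-p) q₁`, so
`q/r = q(p)/r + q₁/r₁`, reducing to the numerator `1`.  If all roots of `r` equal `p`: `(σ-p)^{-n}` has a periodic
primitive for `n ≥ 2`, and `wind_inside` for `n = 1`.  If `r = (X-p)(X-p') r₂` with `p ≠ p'`:
`1/r = (1/((X-p) r₂) - 1/((X-p') r₂)) / (p-p')`, both of smaller degree.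
`Rat` is closed under sums, products, contains `1/(σ-p)`; for `c : ℂ` and `Rat e`, `(σ-c) e - c₀` is `Rat` where
`c₀ = q.coeff (deg r - 1)`.
-/

open Complex ComplexConjugate MeasureTheory Set Filter Topology Polynomial
open scoped Interval Real

noncomputable section

namespace Vale.Agent.Lib.P123.Crz

namespace Crv

variable (C : Crv)

variable {C} in
theorem Inside.ne {p : ℂ} (hp : C.Inside p) (t : ℝ) : C.σ t - p ≠ 0 := by sorry

theorem ne_of_outside {p : ℂ} {t₀ : ℝ} (h : C.sd p t₀ < 0) (t : ℝ) : C.σ t - p ≠ 0 := by sorry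

theorem wind_inside {p : ℂ} (hp : C.Inside p) :
    ∫ t in (0 : ℝ)..(2 * π), C.dσ t / (C.σ t - p) = 2 * π * I := by sorry

theorem wind_outside {p : ℂ} {t₀ : ℝ} (h : C.sd p t₀ < 0) :
    ∫ t in (0 : ℝ)..(2 * π), C.dσ t / (C.σ t - p) = 0 := by sorry

theorem poly_moment (q : ℂ[X]) :
    ∫ t in (0 : ℝ)..(2 * π), q.eval (C.σ t) * C.dσ t = 0 := by sorry

theorem rat_moment (q r : ℂ[X]) (hr : r.Monic) (hroots : ∀ p, r.IsRoot p → C.Inside p)
    (hdeg : q.degree < r.degree) :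
    ∫ t in (0 : ℝ)..(2 * π), q.eval (C.σ t) / r.eval (C.σ t) * C.dσ t
      = 2 * π * I * q.coeff (r.natDegree - 1) := by sorry

/-- A pole outside: `(σ^j - p^j)/(σ - p)` is a polynomial. -/
theorem moment_outside {p : ℂ} {t₀ : ℝ} (h : C.sd p t₀ < 0) (q : ℂ[X]) :
    ∫ t in (0 : ℝ)..(2 * π), q.eval (C.σ t) * C.dσ t / (C.σ t - p) = 0 := by sorry

theorem Cz_one {p : ℂ} (hp : C.Inside p) : C.Cz (fun _ => 1) p = 1 := by sorry

end Crv

variable {C : Crv}

theorem Rat.per {e : ℝ → ℂ} (he : Rat C e) : Per e := by sorry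
theorem Rat.lipPer {e : ℝ → ℂ} (he : Rat C e) : LipPer e := by sorry
theorem Rat.zero : Rat C (fun _ => 0) := by sorry
theorem Rat.add {e f : ℝ → ℂ} (he : Rat C e) (hf : Rat C f) : Rat C (fun t => e t + f t) := by sorry
theorem Rat.smul {e : ℝ → ℂ} (c : ℂ) (he : Rat C e) : Rat C (fun t => c * e t) := by sorry
theorem Rat.mul {e f : ℝ → ℂ} (he : Rat C e) (hf : Rat C f) : Rat C (fun t => e t * f t) := by sorry
theorem Rat.kernel {p : ℂ} (hp : C.Inside p) : Rat C (fun t => 1 / (C.σ t - p)) := by sorry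

/-- Multiplication by `σ - c` moves `E₀` into `ℂ + E₀`. -/
theorem Rat.sigma_mul {e : ℝ → ℂ} (he : Rat C e) (c : ℂ) :
    ∃ c₀ : ℂ, Rat C (fun t => (C.σ t - c) * e t - c₀) := by sorry

/-- The Cauchy transform kills `E₀`. -/
theorem Rat.Cz_eq_zero {e : ℝ → ℂ} (he : Rat C e) {z : ℂ} (hz : C.Inside z) : C.Cz e z = 0 := by sorry

/-- The exterior boundary value on `E₀`: algebra + `wind_inside`.
For `e = 1/(σ-p)`: `(e t - e θ)/(σ t - σ θ) = - e t e θ`.  In general use `Rat.Cz_eq_zero` and the limit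
lemma `Crz.boundary_of_const` of module LIMIT. -/
theorem Rat.bounded {e : ℝ → ℂ} (he : Rat C e) : ∃ B : ℝ, ∀ t, ‖e t‖ ≤ B := by sorry

end Vale.Agent.Lib.P123.Crz
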