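import Vale.Agent.Lib.P123.Crz.Doeblin
import Vale.Agent.Lib.P123.Crz.Wind

/-!
# Module QFACTS: the `L²(m)` calculus on continuous periodic functions

`Q a = ∫ |a|² ρ`, `F a = ∫ a ρ`.
Paper proofs: `Q (a+b) ≤ 2 Q a + 2 Q b` pointwise, `Q (g a) ≤ B² Q a`; Cauchy-Schwarz `|F (a b)|² ≤ Q a Q b` (for every real `r > 0`,
`|a b| ≤ (r |a|² + |b|²/r)/2`, integrate, optimise, or use Mathlib Hölder).
`N_per`: `k` jointly continuous and periodic.  `Jensen`: `|N a|² ≤ N |a|²` pointwise (`k ≥ 0`, mass one; Cauchy-Schwarz in `t`), then `E.inv`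
applied to the function `|a|²`: `Q (N a) ≤ Q a`.  `N_cj`: `k` is real.  `F_N` is `E.inv`.
-/

open Complex ComplexConjugate MeasureTheory Set Filter Topology Polynomial
open scoped Interval Real

noncomputable section

namespace Vale.Agent.Lib.P123.Crz

variable {C : Crv} (E : Equil C)

namespace Equil

theorem Q_nonneg {a : ℝ → ℂ} (ha : Per a) : 0 ≤ E.Q a := by sorry
theorem Q_add_le {a b : ℝ → ℂ} (ha : Per a) (hb : Per b) :
    E.Q (fun t => a t + b t) ≤ 2 * E.Q a + 2 * E.Q b := by sorry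
theorem Q_mul_le {a g : ℝ → ℂ} (ha : Per a) (hg : Per g) {B : ℝ} (hB : ∀ t, ‖g t‖ ≤ B) :
    E.Q (fun t => g t * a t) ≤ B ^ 2 * E.Q a := by sorry
/-- Cauchy Schwarz in `L²(m)`. -/
theorem F_mul_sq_le {a b : ℝ → ℂ} (ha : Per a) (hb : Per b) :
    ‖E.F (fun t => a t * b t)‖ ^ 2 ≤ E.Q a * E.Q b := by sorry
theorem F_norm_le {a b : ℝ → ℂ} (ha : Per a) (hb : Per b) :
    ‖E.F (fun t => a t * b t)‖ ≤ Real.sqrt (E.Q a) * Real.sqrt (E.Q b) := by sorry
/-- `N` preserves continuous periodic functions. -/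
theorem N_per {a : ℝ → ℂ} (ha : Per a) : Per (C.N a) := by sorry
/-- `N` is a contraction of `L²(m)`. -/
theorem Q_N_le {a : ℝ → ℂ} (ha : Per a) : E.Q (C.N a) ≤ E.Q a := by sorry
theorem N_cj {a : ℝ → ℂ} : C.N (cj a) = cj (C.N a) := by sorry
/-- The functional `F` and `N`. -/
theorem F_N {a : ℝ → ℂ} (ha : Per a) : E.F (C.N a) = E.F a := by sorry

end Equil

end Vale.Agent.Lib.P123.Crz
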